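import Vale.Agent.P042.Upper.Basic

/-!
The moments of a trigonometric polynomial with rational frequencies on an interval are compared
with those over a full period.
-/

open Finset

namespace Vale.Agent.P042.Upper.Rgh

noncomputable section

theorem ee_nat_mul (n : ℕ) (D : ℝ) : ee ((n : ℝ) * D) = ee D ^ n := by
  rw [ee, ee, ← Complex.exp_nat_mul]
  congr 1
  push_cast
  ring

theorem exists_int_of_ee_eq_one {D : ℝ} (h : ee D = 1) : ∃ t : ℤ, D = t := by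
  rw [ee, Complex.exp_eq_one_iff] at h
  obtain ⟨t, ht⟩ := h
  refine ⟨t, Complex.ofReal_inj.mp (mul_left_cancel₀
    (show (2 * (Real.pi : ℂ) * Complex.I) ≠ 0 by simp [Real.pi_ne_zero]) ?_)⟩
  push_cast at ht ⊢
  linear_combination ht

/-- A geometric sum over an interval differs from its average by at most the denominator. -/
theorem geom_interval {D : ℝ} {q P : ℕ} (hq : 0 < q) (hP : 0 < P)
    (hqD : ∃ a : ℤ, (q : ℝ) * D = a) (hPD : ∃ a : ℤ, (P : ℝ) * D = a) (lo hi : ℤ) :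
    ‖(∑ n ∈ Icc lo hi, ee ((n : ℝ) * D)) -
      ((Icc lo hi).card : ℂ) / P * ∑ n ∈ range P, ee ((n : ℝ) * D)‖ ≤ q := by
  by_cases hD : ee D = 1
  · obtain ⟨t, rfl⟩ := exists_int_of_ee_eq_one hD
    have e1 : ∀ n : ℤ, ee ((n : ℝ) * (t : ℝ)) = 1 := fun n => by rw [← Int.cast_mul, ee_int]
    have e2 : ∀ n : ℕ, ee ((n : ℝ) * (t : ℝ)) = 1 := fun n => by
      exact_mod_cast e1 (n : ℤ)
    have hP' : (P : ℂ) ≠ 0 := by exact_mod_cast hP.ne'
    simp only [e1, e2, sum_const, card_range, nsmul_eq_mul, mul_one]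
    rw [div_mul_cancel₀ _ hP', sub_self, norm_zero]
    exact Nat.cast_nonneg q
  obtain ⟨a, ha⟩ := hqD
  obtain ⟨a', ha'⟩ := hPD
  have hzq : ee D ^ q = 1 := by rw [← ee_nat_mul, ha, ee_int]
  have hzero : ∑ n ∈ range P, ee ((n : ℝ) * D) = 0 := by
    simp only [ee_nat_mul]
    rw [geom_sum_eq hD, ← ee_nat_mul, ha', ee_int, sub_self, zero_div]
  rw [hzero, mul_zero, sub_zero]
  have hmap : ∑ n ∈ Icc lo hi, ee ((n : ℝ) * D) =
      ee ((lo : ℝ) * D) * ∑ k ∈ range (hi + 1 - lo).toNat, ee D ^ k := by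
    rw [Int.Icc_eq_finset_map, sum_map, mul_sum]
    refine sum_congr rfl fun k _ => ?_
    rw [← ee_nat_mul, ← ee_add]
    congr 1
    simp
    ring
  rw [hmap, norm_mul, norm_ee, one_mul]
  set L := (hi + 1 - lo).toNat
  have hred : ∑ k ∈ range L, ee D ^ k = ∑ k ∈ range (L % q), ee D ^ k := by
    rw [geom_sum_eq hD, geom_sum_eq hD]
    congr 2
    nth_rewrite 1 [← Nat.mod_add_div L q]
    rw [pow_add, pow_mul, hzq, one_pow, mul_one]
  rw [hred]
  calc ‖∑ k ∈ range (L % q), ee D ^ k‖ ≤ ∑ k ∈ range (L % q), ‖ee D ^ k‖ := norm_sum_le _ _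
    _ = ((L % q : ℕ) : ℝ) := by simp [norm_pow, norm_ee]
    _ ≤ q := by exact_mod_cast (Nat.mod_lt _ hq).le

/-- Moments on an interval against moments over a period. -/
theorem moment_transfer {ι : Type*} [DecidableEq ι] (B : Finset ι) (c : ι → ℂ) (θ : ι → ℝ)
    (P Qb m : ℕ) (hP : 0 < P)
    (hden : ∀ b ∈ B, ∃ q : ℕ, 0 < q ∧ q ≤ Qb ∧ q ∣ P ∧ ∃ a : ℤ, θ b = (a : ℝ) / q)
    (lo hi : ℤ) :
    ∑ n ∈ Icc lo hi, ‖∑ b ∈ B, c b * ee ((n : ℝ) * θ b)‖ ^ (2 * m) ≤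
      ((Icc lo hi).card : ℝ) *
          ((∑ n ∈ range P, ‖∑ b ∈ B, c b * ee ((n : ℝ) * θ b)‖ ^ (2 * m)) / P) +
        (∑ b ∈ B, ‖c b‖) ^ (2 * m) * (Qb : ℝ) ^ (2 * m) := by
  classical
  choose! q hq0 hqle hqP a ha using hden
  set T := Fintype.piFinset fun _ : Fin m => B with hT
  set co : (Fin m → ι) → ℂ := fun t => ∏ i, c (t i) with hco
  set fr : (Fin m → ι) → ℝ := fun t => ∑ i, θ (t i) with hfr
  have expand : ∀ x : ℝ, ((‖∑ b ∈ B, c b * ee (x * θ b)‖ ^ (2 * m) : ℝ) : ℂ) =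
      ∑ t ∈ T, ∑ t' ∈ T, co t * starRingEnd ℂ (co t') * ee (x * (fr t - fr t')) := by
    intro x
    have hpow : (∑ b ∈ B, c b * ee (x * θ b)) ^ m = ∑ t ∈ T, co t * ee (x * fr t) := by
      rw [sum_pow' B (fun b => c b * ee (x * θ b)) m]
      refine sum_congr rfl fun t _ => ?_
      rw [hco, hfr, prod_mul_distrib, mul_sum]
      congr 1
      induction (univ : Finset (Fin m)) using Finset.induction_on with
      | empty => simp [ee_zero]
      | insert k s hk ih => rw [prod_insert hk, sum_insert hk, ee_add, ih]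
    rw [pow_mul', ← norm_pow, hpow]
    have hsq : ∀ z : ℂ, ((‖z‖ ^ 2 : ℝ) : ℂ) = z * starRingEnd ℂ z := fun z => by
      rw [Complex.mul_conj, Complex.normSq_eq_norm_sq]
    rw [hsq, map_sum, sum_mul_sum]
    refine sum_congr rfl fun t _ => sum_congr rfl fun t' _ => ?_
    rw [map_mul, ← ee_neg, mul_sub, sub_eq_add_neg, ee_add]
    ring
  have hfrac : ∀ t ∈ T, ∀ t' ∈ T, ‖(∑ n ∈ Icc lo hi, ee ((n : ℝ) * (fr t - fr t'))) -
      ((Icc lo hi).card : ℂ) / P * ∑ n ∈ range P, ee ((n : ℝ) * (fr t - fr t'))‖ ≤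
        (Qb : ℝ) ^ (2 * m) := by
    intro t ht t' ht'
    rw [hT, Fintype.mem_piFinset] at ht ht'
    have key : ∀ (N : ℕ) (s : Fin m → ι), (∀ i, s i ∈ B) → (∀ i, q (s i) ∣ N) →
        ∃ z : ℤ, (N : ℝ) * fr s = z := by
      intro N s hs hN
      choose d hd using hN
      refine ⟨∑ i, (d i : ℤ) * a (s i), ?_⟩
      rw [hfr, mul_sum]
      push_cast
      refine sum_congr rfl fun i _ => ?_
      have : (N : ℝ) = (q (s i) : ℝ) * d i := by exact_mod_cast hd i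
      have hne : (q (s i) : ℝ) ≠ 0 := by exact_mod_cast (hq0 _ (hs i)).ne'
      rw [ha _ (hs i), this]
      field_simp
    obtain ⟨z1, hz1⟩ := key P t ht fun i => hqP _ (ht i)
    obtain ⟨z2, hz2⟩ := key P t' ht' fun i => hqP _ (ht' i)
    set N := (∏ i, q (t i)) * ∏ i, q (t' i) with hN
    obtain ⟨y1, hy1⟩ := key N t ht fun i =>
      dvd_mul_of_dvd_left (dvd_prod_of_mem _ (mem_univ i)) _
    obtain ⟨y2, hy2⟩ := key N t' ht' fun i =>
      dvd_mul_of_dvd_right (dvd_prod_of_mem _ (mem_univ i)) _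
    refine (geom_interval (q := N) ?_ hP ⟨y1 - y2, by push_cast; rw [mul_sub, hy1, hy2]⟩
      ⟨z1 - z2, by push_cast; rw [mul_sub, hz1, hz2]⟩ lo hi).trans ?_
    · exact Nat.mul_pos (prod_pos fun i _ => hq0 _ (ht i)) (prod_pos fun i _ => hq0 _ (ht' i))
    · have h1 : ∀ s : Fin m → ι, (∀ i, s i ∈ B) → ∏ i, q (s i) ≤ Qb ^ m := fun s hs =>
        (prod_le_prod (fun i _ => Nat.zero_le _) fun i _ => hqle _ (hs i)).trans_eq (by simp)
      have := Nat.mul_le_mul (h1 t ht) (h1 t' ht')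
      rw [← pow_add, ← two_mul] at this
      exact_mod_cast this
  have hmass : ∑ t ∈ T, ‖co t‖ = (∑ b ∈ B, ‖c b‖) ^ m := by
    rw [sum_pow' B (fun b => ‖c b‖) m]
    exact sum_congr rfl fun t _ => norm_prod _ _
  have hdiff : ‖((∑ n ∈ Icc lo hi, ‖∑ b ∈ B, c b * ee ((n : ℝ) * θ b)‖ ^ (2 * m) -
      ((Icc lo hi).card : ℝ) / P *
        ∑ n ∈ range P, ‖∑ b ∈ B, c b * ee ((n : ℝ) * θ b)‖ ^ (2 * m) : ℝ) : ℂ)‖ ≤
      (∑ b ∈ B, ‖c b‖) ^ (2 * m) * (Qb : ℝ) ^ (2 * m) := by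
    rw [Complex.ofReal_sub, Complex.ofReal_sum, Complex.ofReal_mul, Complex.ofReal_sum]
    simp only [expand]
    rw [sum_comm (s := Icc lo hi), sum_comm (s := range P), mul_sum, ← sum_sub_distrib,
      two_mul m, pow_add (∑ b ∈ B, ‖c b‖), ← hmass, sum_mul_sum, sum_mul]
    refine (norm_sum_le _ _).trans (sum_le_sum fun t ht => ?_)
    rw [sum_comm (s := Icc lo hi), sum_comm (s := range P), mul_sum, ← sum_sub_distrib, sum_mul]
    refine (norm_sum_le _ _).trans (sum_le_sum fun t' ht' => ?_)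
    rw [← mul_sum, ← mul_sum, mul_left_comm, ← mul_sub, norm_mul, norm_mul, RCLike.norm_conj,
      ← two_mul m]
    refine mul_le_mul_of_nonneg_left ?_ (mul_nonneg (norm_nonneg _) (norm_nonneg _))
    push_cast
    exact hfrac t ht t' ht'
  rw [Complex.norm_real] at hdiff
  have h2 := (le_abs_self _).trans hdiff
  rw [div_mul_eq_mul_div] at h2
  rw [mul_div_assoc'] 
  linarith

end

end Vale.Agent.P042.Upper.Rgh
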