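import Vale.Agent.P042.Upper.Rough.Ramanujan
import Vale.Agent.P042.Upper.Rough.Period

/-!
The level inequality for rough moduli, by induction on the level, given the numerical parameters.
-/

open Finset

namespace Vale.Agent.P042.Upper.Rgh

noncomputable section

/-- The weighted mass at rough moduli. -/
def mass (ω : ℕ → ℕ → ℝ) (X Q : ℕ) (A : Finset ℤ) (M : ℝ) : ℝ :=
  ∑ q ∈ (Icc 2 Q).filter (fun q => ∀ p ∈ q.primeFactors, X < p),
    wt ω q * ∑ a ∈ reduced q, ‖fhat A M ((a : ℝ) / q)‖ ^ 2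

variable {X Q : ℕ}

/-- The frequencies of denominators between `2` and `Q`. -/
def freqs (X Q : ℕ) : Finset (Fz X Q) := univ.filter fun b => 1 < den b ∧ den b ≤ Q

theorem mass_le_freqs {ω : ℕ → ℕ → ℝ} (hω : ∀ q, 0 ≤ wt ω q) (A : Finset ℤ) (M : ℝ) :
    mass ω X Q A M ≤ ∑ b ∈ freqs X Q, wt ω (den b) * ‖fhat A M (theta b)‖ ^ 2 := by
  classical
  simp only [mass, mul_sum]
  rw [sum_sigma']
  set s := ((Icc 2 Q).filter fun q => ∀ p ∈ q.primeFactors, X < p).sigma fun q => reduced q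
  have hs : ∀ p ∈ s, 2 ≤ p.1 ∧ p.1 ≤ Q ∧ (∀ r ∈ p.1.primeFactors, X < r) ∧ p.2 < p.1 ∧
      Nat.Coprime p.1 p.2 := by
    intro p hp
    obtain ⟨h1, h2⟩ := mem_sigma.mp hp
    obtain ⟨h3, h4⟩ := mem_filter.mp h1
    obtain ⟨h5, h6⟩ := mem_filter.mp h2
    exact ⟨(mem_Icc.mp h3).1, (mem_Icc.mp h3).2, h4, mem_range.mp h5, h6⟩
  have hex : ∀ p ∈ s, ∃ b : Fz X Q, den b = p.1 ∧ ∃ k : ℤ, (p.2 : ℝ) / p.1 = theta b + k :=
    fun p hp => exists_freq (by have := (hs p hp).1; omega) (hs p hp).2.1 (hs p hp).2.2.1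
      (hs p hp).2.2.2.2
  choose f hf k hk using hex
  rw [← sum_attach s]
  let g : {x // x ∈ s} → Fz X Q := fun p => f p.1 p.2
  have hinj : ∀ p ∈ s.attach, ∀ p' ∈ s.attach, g p = g p' → p = p' := by
    intro p _ p' _ e
    change f p.1 p.2 = f p'.1 p'.2 at e
    have hq : p.1.1 = p'.1.1 := by rw [← hf p.1 p.2, ← hf p'.1 p'.2, e]
    have h0 : (0 : ℝ) < (p.1.1 : ℕ) := by exact_mod_cast (show 0 < p.1.1 by have := (hs _ p.2).1; omega)
    have hdiff : (p.1.2 : ℝ) / p.1.1 - (p'.1.2 : ℝ) / p'.1.1 =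
        ((k p.1 p.2 - k p'.1 p'.2 : ℤ) : ℝ) := by
      rw [hk p.1 p.2, hk p'.1 p'.2, e]; push_cast; ring
    rw [← hq, div_sub_div_same, div_eq_iff h0.ne'] at hdiff
    have hdvd : (p.1.2 : ℤ) - p'.1.2 = (k p.1 p.2 - k p'.1 p'.2) * p.1.1 := by exact_mod_cast hdiff
    have hm : p'.1.2 ≡ p.1.2 [MOD p.1.1] :=
      Nat.modEq_iff_dvd.mpr ⟨k p.1 p.2 - k p'.1 p'.2, by rw [hdvd]; ring⟩
    have ha : p.1.2 = p'.1.2 :=
      (hm.eq_of_lt_of_lt (hq ▸ (hs _ p'.2).2.2.2.1) (hs _ p.2).2.2.2.1).symm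
    exact Subtype.ext (Sigma.ext hq (heq_of_eq ha))
  calc ∑ p ∈ s.attach, wt ω p.1.1 * ‖fhat A M ((p.1.2 : ℝ) / p.1.1)‖ ^ 2
      = ∑ p ∈ s.attach, wt ω (den (g p)) * ‖fhat A M (theta (g p))‖ ^ 2 :=
        sum_congr rfl fun p _ => by
          show _ = wt ω (den (f p.1 p.2)) * _
          rw [hf p.1 p.2, hk p.1 p.2, fhat_add_int]
    _ = ∑ b ∈ s.attach.image g, wt ω (den b) * ‖fhat A M (theta b)‖ ^ 2 :=
        (sum_image (f := fun b => wt ω (den b) * ‖fhat A M (theta b)‖ ^ 2) hinj).symm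
    _ ≤ _ := sum_le_sum_of_subset_of_nonneg
        (fun b hb => by
          obtain ⟨p, -, rfl⟩ := mem_image.mp hb
          have := hs p.1 p.2
          refine mem_filter.mpr ⟨mem_univ _, ?_⟩
          rw [show den (g p) = p.1.1 from hf p.1 p.2]
          omega)
        fun b _ _ => mul_nonneg (hω _) (sq_nonneg _)

theorem mass_ge_freqs {ω : ℕ → ℕ → ℝ} (hω : ∀ q, 0 ≤ wt ω q) (A : Finset ℤ) (M : ℝ) {Q' t : ℕ}
    (U : Finset (Fz X Q)) (hU : ∀ u ∈ U, 1 < den u ∧ den u ≤ Q' ∧ Nat.Coprime t (den u)) :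
    ∑ u ∈ U, wt ω (den u) * ‖fhat A M ((t : ℝ) * theta u)‖ ^ 2 ≤ mass ω X Q' A M := by
  classical
  simp only [mass, mul_sum]
  rw [sum_sigma']
  choose num hnum hco using fun u : Fz X Q => exists_num u
  let g : Fz X Q → (_ : ℕ) × ℕ := fun u => ⟨den u, (t * num u) % den u⟩
  have hinj : ∀ u ∈ U, ∀ u' ∈ U, g u = g u' → u = u' := by
    intro u hu u' _ e
    simp only [g, Sigma.mk.injEq, heq_eq_eq] at e
    obtain ⟨e1, e2⟩ := e
    rw [← e1] at e2
    have h1 : num u ≡ num u' [MOD den u] :=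
      Nat.ModEq.cancel_left_of_coprime (Nat.coprime_comm.mp (hU u hu).2.2) e2
    obtain ⟨j, hj⟩ := Nat.modEq_iff_dvd.mp h1
    refine theta_inj (-j) ?_
    have hd : (den u : ℝ) ≠ 0 := by exact_mod_cast (den_pos u).ne'
    have hj' : (num u' : ℝ) - num u = (den u : ℝ) * j := by exact_mod_cast hj
    rw [hnum u, hnum u', ← e1]
    field_simp
    push_cast
    linear_combination -hj'
  calc ∑ u ∈ U, wt ω (den u) * ‖fhat A M ((t : ℝ) * theta u)‖ ^ 2
      = ∑ u ∈ U, wt ω (g u).1 * ‖fhat A M (((g u).2 : ℝ) / (g u).1)‖ ^ 2 := by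
        refine sum_congr rfl fun u _ => ?_
        show _ = wt ω (den u) * ‖fhat A M ((((t * num u) % den u : ℕ) : ℝ) / (den u : ℝ))‖ ^ 2
        have hd : (den u : ℝ) ≠ 0 := by exact_mod_cast (den_pos u).ne'
        have h : (((t * num u) % den u : ℕ) : ℝ) + (den u : ℝ) * ((t * num u / den u : ℕ) : ℝ) =
            (t : ℝ) * num u := by exact_mod_cast Nat.mod_add_div (t * num u) (den u)
        have h2 : (t : ℝ) * theta u =
            (((t * num u) % den u : ℕ) : ℝ) / den u + (((t * num u / den u : ℕ) : ℤ) : ℝ) := by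
          rw [hnum u, ← mul_div_assoc, ← h, Int.cast_natCast]
          field_simp
        rw [h2, fhat_add_int]
    _ = ∑ p ∈ U.image g, wt ω p.1 * ‖fhat A M ((p.2 : ℝ) / p.1)‖ ^ 2 := by
        rw [sum_image hinj]
    _ ≤ _ := sum_le_sum_of_subset_of_nonneg
        (fun p hp => by
          obtain ⟨u, hu, rfl⟩ := mem_image.mp hp
          obtain ⟨h1, h2, h3⟩ := hU u hu
          have hlt : t * num u % den u < den u := Nat.mod_lt _ (den_pos u)
          refine mem_sigma.mpr ⟨mem_filter.mpr ⟨mem_Icc.mpr ⟨h1, h2⟩, den_primeFactors u⟩,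
            mem_filter.mpr ⟨mem_range.mpr hlt, ?_⟩⟩
          show Nat.gcd (den u) (t * num u % den u) = 1
          rw [Nat.gcd_comm, ← Nat.gcd_rec]
          exact Nat.Coprime.mul_right h3.symm (hco u).symm)
        fun b _ _ => mul_nonneg (hω _) (sq_nonneg _)

theorem card_freqs (hQ : 1 ≤ Q) : (freqs X Q).card ≤ 4 * Q ^ 2 := by
  classical
  choose num hnum hco using fun u : Fz X Q => exists_num u
  have h : (freqs X Q).card ≤ (range (Q + 1) ×ˢ range (Q + 1)).card := by
    refine card_le_card_of_injOn (fun u => (den u, num u % den u)) (fun u hu => ?_)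
      (fun u _ u' _ e => ?_)
    · have h1 : den u ≤ Q := (mem_filter.mp hu).2.2
      have h2 := Nat.mod_lt (num u) (den_pos u)
      refine mem_product.mpr ⟨mem_range.mpr ?_, mem_range.mpr ?_⟩
      · show den u < Q + 1
        omega
      · show num u % den u < Q + 1
        omega
    · simp only [Prod.mk.injEq] at e
      obtain ⟨e1, e2⟩ := e
      rw [← e1] at e2
      obtain ⟨j, hj⟩ := Nat.modEq_iff_dvd.mp (show num u ≡ num u' [MOD den u] from e2)
      refine theta_inj (-j) ?_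
      have hd : (den u : ℝ) ≠ 0 := by exact_mod_cast (den_pos u).ne'
      have hj' : (num u' : ℝ) - num u = (den u : ℝ) * j := by exact_mod_cast hj
      rw [hnum u, hnum u', ← e1]
      field_simp
      push_cast
      linear_combination -hj'
  rw [card_product, card_range] at h
  refine h.trans ?_
  have : Q + 1 ≤ 2 * Q := by omega
  calc (Q + 1) * (Q + 1) ≤ (2 * Q) * (2 * Q) := Nat.mul_le_mul this this
    _ = _ := by ring

theorem fhat_zero (A : Finset ℤ) (M : ℝ) : fhat A M 0 = (A.card : ℂ) / M := by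
  simp [fhat, ee_zero]

theorem norm_fhat_le (A : Finset ℤ) {M : ℝ} (hM : 0 < M) (θ : ℝ) :
    ‖fhat A M θ‖ ≤ A.card / M := by
  rw [fhat, norm_div, Complex.norm_real, Real.norm_of_nonneg hM.le]
  gcongr
  exact (norm_sum_le _ _).trans (by simp [norm_ee])

theorem glob_card {A : Finset ℤ} {α M : ℝ} {R : ℕ} (h : Glob A α M R) (hR : 1 ≤ R) :
    (A.card : ℝ) ≤ 4 * α * M := by
  have := h.card_le 1 0 le_rfl hR
  rw [show inClass A 1 0 = A from filter_true_of_mem fun n _ => by simp] at this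
  simpa using this

theorem rescale_glob {A : Finset ℤ} {α M : ℝ} {R t R' : ℕ} (h : Glob A α M R) (ht : 1 ≤ t)
    (hR' : R' * t ≤ R) (x : ℤ) : Glob (rescale A t x) α (M / t) R' := by
  classical
  have ht' : (0 : ℝ) < t := by exact_mod_cast ht
  have htz : (t : ℤ) ≠ 0 := by omega
  have hmem : ∀ y, y ∈ rescale A t x → x + t * y ∈ A := by
    intro y hy
    obtain ⟨n, hn, rfl⟩ := mem_image.mp hy
    obtain ⟨hnA, d, hd⟩ := mem_filter.mp hn
    rw [hd, Int.mul_ediv_cancel_left _ htz]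
    rwa [show x + t * d = n by omega]
  refine ⟨?_, fun r y hr hrR => ?_⟩
  · obtain ⟨z, hz⟩ := h.supp
    refine ⟨(z - x) / t, fun y hy => ?_⟩
    have := hz _ (hmem y hy)
    push_cast at this
    have h1 := this.1
    have h2 := this.2
    constructor
    · rw [div_le_iff₀ ht']; linarith
    · rw [show (z - (x : ℝ)) / t + 2 * (M / t) = (z - x + 2 * M) / t by ring, le_div_iff₀ ht']
      linarith
  · have := h.card_le (r * t) (x + t * y) (Nat.mul_pos hr ht)
      ((Nat.mul_le_mul_right t hrR).trans hR')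
    refine le_trans ?_ (this.trans_eq ?_)
    · exact_mod_cast card_le_card_of_injOn (fun w => x + t * w)
        (fun w hw => by
          obtain ⟨hw1, d, hd⟩ := mem_filter.mp hw
          refine mem_filter.mpr ⟨hmem w hw1, d, ?_⟩
          push_cast
          linear_combination (t : ℤ) * hd)
        fun w _ w' _ e => mul_left_cancel₀ htz (add_left_cancel e)
    · push_cast
      field_simp

theorem norm_sum_inClass (A : Finset ℤ) {t : ℕ} (ht : 1 ≤ t) (x : ℤ) {M : ℝ} (hM : 0 < M)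
    (θ : ℝ) :
    ‖∑ l ∈ inClass A t x, ee (-((l : ℝ) * θ))‖ * ((t : ℝ) / M) =
      ‖fhat (rescale A t x) (M / t) ((t : ℝ) * θ)‖ := by
  classical
  have ht' : (0 : ℝ) < t := by exact_mod_cast ht
  have htz : (t : ℤ) ≠ 0 := by omega
  have hinj : ∀ n ∈ inClass A t x, ∀ n' ∈ inClass A t x,
      (n - x) / (t : ℤ) = (n' - x) / (t : ℤ) → n = n' := by
    intro n hn n' hn' e
    obtain ⟨-, d, hd⟩ := mem_filter.mp hn
    obtain ⟨-, d', hd'⟩ := mem_filter.mp hn'
    rw [hd, hd', Int.mul_ediv_cancel_left _ htz, Int.mul_ediv_cancel_left _ htz] at e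
    rw [e] at hd
    omega
  rw [fhat, rescale, sum_image hinj, norm_div, Complex.norm_real,
    Real.norm_of_nonneg (div_pos hM ht').le]
  have : ‖∑ l ∈ inClass A t x, ee (-((l : ℝ) * θ))‖ =
      ‖∑ l ∈ inClass A t x, ee ((((l - x) / (t : ℤ) : ℤ) : ℝ) * ((t : ℝ) * θ))‖ := by
    have e : ∀ l ∈ inClass A t x, ee (-((l : ℝ) * θ)) = ee (-((x : ℝ) * θ)) *
        starRingEnd ℂ (ee ((((l - x) / (t : ℤ) : ℤ) : ℝ) * ((t : ℝ) * θ))) := by
      intro l hl
      obtain ⟨-, d, hd⟩ := mem_filter.mp hl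
      rw [hd, Int.mul_ediv_cancel_left _ htz, ← ee_neg, ← ee_add]
      congr 1
      have : (l : ℝ) - x = (t : ℝ) * d := by exact_mod_cast hd
      linear_combination (-θ) * this
    rw [sum_congr rfl e, ← mul_sum, norm_mul, norm_ee, one_mul, ← map_sum, RCLike.norm_conj]
  rw [this]
  field_simp
  exact congrArg norm (sum_congr rfl fun l _ => congrArg ee (by ring))

/-- The numerical parameters of the induction. -/
structure Num (ω : ℕ → ℕ → ℝ) (X Qmax m : ℕ) (α ε δ' ρ E : ℝ) : Prop where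
  m_pos : 1 ≤ m
  alpha_pos : 0 < α
  alpha_le : α ≤ 1
  alpha_large : 3 ≤ (4 : ℝ) ^ m * (4 * α)
  eps_le : ε ≤ 1
  eps_pos : 0 < ε
  delta_le : δ' ≤ 1
  delta_nonneg : 0 ≤ δ'
  delta_small : 192 * δ' ≤ ε
  rho_nonneg : 0 ≤ ρ
  rho_small : 144 * ρ ≤ ε
  E_one : 1 ≤ E
  err : (16 * (Qmax : ℝ) ^ 2) ^ (2 * m) * (Qmax : ℝ) ^ (2 * m) ≤ (ρ * α) ^ (2 * m) * E
  small : ∀ p j : ℕ, p.Prime → X < p → 1 ≤ j → 14 * (m : ℝ) * ω p j ≤ δ'
  prod_small : ∀ Q ≤ Qmax, ∏ i : Ix X Q, (1 + (20 * (m : ℝ) * ∑ j ∈ Icc 1 Q, ω i j) ^ (2 * m))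
      ≤ 1 + ρ ^ (2 * m)

variable {ω : ℕ → ℕ → ℝ} {Qmax m : ℕ} {α ε δ' ρ E : ℝ}

theorem wt_den_supp (hω : ∀ q, 0 ≤ wt ω q) (u : Fz X Q) :
    wt ω (den u) = ∏ i ∈ fsupp u, ω i (expo u i) := by
  classical
  rw [wt_den, fsupp_eq, prod_filter]
  refine prod_congr rfl fun i _ => ?_
  split_ifs with h
  · rw [part_eq, wt_prime_pow ω i.prime]
    intro h0
    rw [part_eq, h0, pow_zero] at h
    exact h rfl
  · rw [not_not.mp h, wt_one]

theorem supp_weight_le (hN : Num ω X Qmax m α ε δ' ρ E) (hω : ∀ q, 0 ≤ wt ω q)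
    (hnn : ∀ p j, 0 ≤ ω p j) (u : Fz X Q) (hu : 1 < den u) :
    (14 * m : ℝ) ^ (fsupp u).card * wt ω (den u) ≤ δ' := by
  classical
  rw [wt_den_supp hω, ← prod_const, ← prod_mul_distrib]
  obtain ⟨i, hi⟩ : (fsupp u).Nonempty :=
    nonempty_iff_ne_empty.mpr fun h => by have := den_le_one_iff.mpr h; omega
  have hj : ∀ k ∈ fsupp u, 1 ≤ expo u k := fun k hk =>
    Nat.one_le_iff_ne_zero.mpr fun h => (mem_filter.mp hk).2 ((expo_eq_zero u k).mp h)
  rw [← mul_prod_erase _ _ hi]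
  refine (mul_le_of_le_one_right (mul_nonneg (by positivity) (hnn _ _)) (prod_le_one
    (fun k _ => mul_nonneg (by positivity) (hnn _ _)) fun k hk => ?_)).trans
      (hN.small _ _ i.prime i.gt (hj i hi))
  exact (hN.small _ _ k.prime k.gt (hj k (mem_of_mem_erase hk))).trans hN.delta_le

/-- The bound for one set of new coordinates. -/
theorem inner_bound (hN : Num ω X Qmax m α ε δ' ρ E) (hω : ∀ q, 0 ≤ wt ω q)
    (hnn : ∀ p j, 0 ≤ ω p j) {A : Finset ℤ} {M : ℝ} (hG : Glob A α M Q) (hQ : 1 ≤ Q)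
    (hM : E * Q ≤ M)
    (ih : ∀ Q' < Q, ∀ (A' : Finset ℤ) (M' : ℝ), E * Q' ≤ M' → Glob A' α M' Q' →
      mass ω X Q' A' M' ≤ ε * α ^ 2)
    (c : Fz X Q → ℂ) (hc : ∀ b, c b =
      if b ∈ freqs X Q then (wt ω (den b) : ℂ) * starRingEnd ℂ (fhat A M (theta b)) else 0)
    (S : Finset (Ix X Q)) (hS : S.Nonempty) (n : ℕ) :
    ∑ u ∈ univ.filter (fun u : Fz X Q => Disjoint (fsupp u) S),
      (14 * m : ℝ) ^ (fsupp u).card *
        ‖∑ v ∈ univ.filter (fun v : Fz X Q => fsupp v = S),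
          c (merge u v) * chr v (toPt (n : ℤ))‖ ^ 2 ≤
      (5 * α * ∏ i ∈ S, (2 * ∑ j ∈ Icc 1 Q, ω i j)) ^ 2 := by
  classical
  have hM0 : 0 < M := by
    have : (1 : ℝ) ≤ Q := by exact_mod_cast hQ
    nlinarith [hN.E_one]
  set Es : Finset (Ix X Q → ℕ) :=
    Fintype.piFinset fun i => if i ∈ S then Icc 1 Q else {0} with hEs
  have hE : ∀ e ∈ Es, (∀ i, i ∈ S ↔ e i ≠ 0) ∧ ∀ i, e i ≤ Q := by
    intro e he
    rw [hEs, Fintype.mem_piFinset] at he
    refine ⟨fun i => ?_, fun i => ?_⟩ <;> specialize he i <;> split_ifs at he with hi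
    · simp only [mem_Icc] at he
      exact ⟨fun _ => by omega, fun _ => hi⟩
    · simp only [mem_singleton] at he
      exact ⟨fun h => absurd h hi, fun h => absurd he h⟩
    · exact (mem_Icc.mp he).2
    · simp only [mem_singleton] at he
      omega
  set we : (Ix X Q → ℕ) → ℝ := fun e => ∏ i ∈ S, ω i (e i) with hwe
  set sv : (Ix X Q → ℕ) → ℕ := fun e => ∏ i ∈ S, (i : ℕ) ^ e i with hsv
  set K := Es ×ˢ S.powerset with hK
  set f : (Ix X Q → ℕ) × Finset (Ix X Q) → Fz X Q → ℝ := fun p u =>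
    if den u * sv p.1 ≤ Q then wt ω (den u) *
      ‖fhat (rescale A (subDen S p.2 p.1) (n : ℤ)) (M / subDen S p.2 p.1)
        ((subDen S p.2 p.1 : ℝ) * theta u)‖ else 0 with hf
  have hwnn : ∀ p : (Ix X Q → ℕ) × Finset (Ix X Q), 0 ≤ we p.1 := fun p =>
    prod_nonneg fun i _ => hnn _ _
  have hvsum : ∀ u ∈ univ.filter (fun u : Fz X Q => Disjoint (fsupp u) S),
      ‖∑ v ∈ univ.filter (fun v : Fz X Q => fsupp v = S), c (merge u v) * chr v (toPt (n : ℤ))‖ ≤
        ∑ p ∈ K, we p.1 * f p u := by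
    intro u hu
    have hdisj : ∀ i ∈ S, (u i).val = 0 := fun i hi => by
      by_contra h
      exact disjoint_right.mp (mem_filter.mp hu).2 hi (mem_filter.mpr ⟨mem_univ _, h⟩)
    rw [← sum_fiberwise_of_maps_to (t := Es) (g := expo) (fun v hv => ?_)]
    swap
    · rw [hEs, Fintype.mem_piFinset]
      intro i
      have hv' := (mem_filter.mp hv).2
      have hiff : i ∈ S ↔ expo v i ≠ 0 := by
        rw [← hv', fsupp, mem_filter, ne_eq, ne_eq, expo_eq_zero]
        simp
      split_ifs with hi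
      · exact mem_Icc.mpr ⟨Nat.one_le_iff_ne_zero.mpr (hiff.mp hi), expo_le v i⟩
      · exact mem_singleton.mpr (not_not.mp (mt hiff.mpr hi))
    refine (norm_sum_le _ _).trans ?_
    rw [hK, sum_product]
    refine sum_le_sum fun e he => ?_
    obtain ⟨he1, he2⟩ := hE e he
    have hfil : (univ.filter fun v : Fz X Q => fsupp v = S).filter (fun v => expo v = e) =
        fibre e := by
      ext v
      simp only [fibre, mem_filter, mem_univ, true_and]
      refine ⟨fun h i => congrFun h.2 i, fun h => ⟨?_, funext h⟩⟩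
      ext i
      rw [fsupp, mem_filter, ne_eq, ← expo_eq_zero, h i, he1 i]
      simp
    rw [hfil]
    have hmerge : ∀ v ∈ fibre e, den (merge u v) = den u * sv e ∧
        theta (merge u v) = theta u + theta v ∧ wt ω (den (merge u v)) = wt ω (den u) * we e := by
      intro v hv
      have hv' : ∀ i, expo v i = e i := (mem_filter.mp hv).2
      have hv0 : ∀ i, i ∉ S → (v i).val = 0 := fun i hi =>
        (expo_eq_zero v i).mp (by rw [hv' i]; exact not_not.mp (mt (he1 i).mpr hi))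
      have hm : ∀ i, part (merge u v) i = part u i * part v i := by
        intro i
        by_cases h : (v i).val = 0
        · rw [(part_eq_one_iff v i).mpr h, mul_one]
          simp [part, merge, h]
        · have hi : i ∈ S := by_contra fun hi => h (hv0 i hi)
          rw [(part_eq_one_iff u i).mpr (hdisj i hi), one_mul]
          simp [part, merge, h]
      have hden : den (merge u v) = den u * sv e := by
        have : den v = sv e := by
          rw [den, hsv, ← prod_subset (subset_univ S) fun i _ hi =>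
            (part_eq_one_iff v i).mpr (hv0 i hi)]
          exact prod_congr rfl fun i _ => by rw [part_eq, hv']
        rw [← this, den, den, den, ← prod_mul_distrib]
        exact prod_congr rfl fun i _ => hm i
      refine ⟨hden, ?_, ?_⟩
      · rw [theta, theta, theta, ← sum_add_distrib]
        refine sum_congr rfl fun i _ => ?_
        by_cases h : (v i).val = 0
        · simp [merge, h]
        · have hi : i ∈ S := by_contra fun hi => h (hv0 i hi)
          simp [merge, h, hdisj i hi]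
      · have hwv : wt ω (den v) = we e := by
          rw [wt_den_supp hω, hwe]
          refine prod_congr ?_ fun i _ => by rw [hv']
          ext i
          rw [fsupp, mem_filter, ne_eq, ← expo_eq_zero, hv' i, he1 i]
          simp
        rw [wt_den, ← hwv, wt_den, wt_den, ← prod_mul_distrib]
        refine prod_congr rfl fun i _ => ?_
        rw [hm i, wt_mul]
        by_cases hi : i ∈ S
        · rw [(part_eq_one_iff u i).mpr (hdisj i hi)]; exact Nat.coprime_one_left _
        · rw [(part_eq_one_iff v i).mpr (hv0 i hi)]; exact Nat.coprime_one_right _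
    have hsv2 : 1 < sv e := by
      obtain ⟨i, hi⟩ := hS
      have h1 : (i : ℕ) ^ e i ∣ sv e := dvd_prod_of_mem _ hi
      have h2 : 1 < (i : ℕ) ^ e i := Nat.one_lt_pow ((he1 i).mp hi) i.prime.one_lt
      exact h2.trans_le (Nat.le_of_dvd (prod_pos fun j _ => pow_pos j.prime.pos _) h1)
    by_cases hle : den u * sv e ≤ Q
    swap
    · rw [sum_eq_zero, norm_zero]
      · exact sum_nonneg fun T _ => by simp [hf, hle]
      intro v hv
      rw [hc, if_neg fun h => hle ((hmerge v hv).1 ▸ (mem_filter.mp h).2.2), zero_mul]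
    have hterm : ∀ v ∈ fibre e, c (merge u v) * chr v (toPt (n : ℤ)) =
        ((wt ω (den u) * we e : ℝ) : ℂ) / M *
          ∑ l ∈ A, ee (-((l : ℝ) * theta u)) * ee ((((n : ℤ) - l : ℤ) : ℝ) * theta v) := by
      intro v hv
      obtain ⟨hd, ht, hw⟩ := hmerge v hv
      have hmem : merge u v ∈ freqs X Q :=
        mem_filter.mpr ⟨mem_univ _, by rw [hd]; have := den_pos u; nlinarith, by rw [hd]; exact hle⟩
      rw [hc, if_pos hmem, hw, ht, fhat, map_div₀, map_sum, Complex.conj_ofReal, chr_toPt]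
      rw [sum_div, mul_sum, sum_mul, mul_sum]
      refine sum_congr rfl fun l _ => ?_
      rw [← ee_neg]
      have e2 : ee (-((l : ℝ) * (theta u + theta v))) * ee (((n : ℤ) : ℝ) * theta v) =
          ee (-((l : ℝ) * theta u)) * ee ((((n : ℤ) - l : ℤ) : ℝ) * theta v) := by
        rw [← ee_add, ← ee_add]
        congr 1
        push_cast
        ring
      rw [← e2]
      ring
    rw [sum_congr rfl hterm, ← mul_sum, sum_comm]
    simp only [← mul_sum]
    rw [sum_congr rfl fun l _ => by rw [sum_fibre S e he1 he2 ((n : ℤ) - l)]]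
    simp only [mul_sum]
    rw [sum_comm]
    refine (norm_sum_le _ _).trans (sum_le_sum fun T _ => ?_)
    show _ ≤ we e * f (e, T) u
    have hpos : 1 ≤ subDen S T e := subDen_pos S T e
    simp only [hf, if_pos hle]
    rw [← norm_sum_inClass A hpos (n : ℤ) hM0 (theta u), inClass, sum_filter, ← mul_sum, norm_mul,
      norm_div, Complex.norm_real, Complex.norm_real, Real.norm_of_nonneg
        (mul_nonneg (hω _) (hwnn (e, T))), Real.norm_of_nonneg hM0.le]
    have hval : (∑ l ∈ A, ee (-((l : ℝ) * theta u)) * ((-1 : ℂ) ^ (S \ T).card *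
        if (subDen S T e : ℤ) ∣ (n : ℤ) - l then (subDen S T e : ℂ) else 0)) =
        ((-1 : ℂ) ^ (S \ T).card * (subDen S T e : ℂ)) *
          ∑ l ∈ A, if (subDen S T e : ℤ) ∣ l - (n : ℤ) then ee (-((l : ℝ) * theta u)) else 0 := by
      rw [mul_sum]
      refine sum_congr rfl fun l _ => ?_
      have : (subDen S T e : ℤ) ∣ (n : ℤ) - l ↔ (subDen S T e : ℤ) ∣ l - (n : ℤ) := by
        rw [← dvd_neg, neg_sub]
      by_cases h : (subDen S T e : ℤ) ∣ l - (n : ℤ)
      · rw [if_pos h, if_pos (this.mpr h)]; ring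
      · rw [if_neg h, if_neg (mt this.mp h)]; ring
    rw [hval, norm_mul, norm_mul, norm_pow, norm_neg, norm_one, one_pow, one_mul,
      Complex.norm_natCast]
    refine le_of_eq ?_
    ring
  have hkey : ∀ p ∈ K, ∑ u ∈ univ.filter (fun u : Fz X Q => Disjoint (fsupp u) S),
      (14 * m : ℝ) ^ (fsupp u).card * f p u ^ 2 ≤ 25 * α ^ 2 := by
    rintro ⟨e, T⟩ hp
    obtain ⟨he, hT⟩ := mem_product.mp hp
    obtain ⟨he1, he2⟩ := hE e he
    set t := subDen S T e with ht
    have ht1 : 1 ≤ t := subDen_pos S T e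
    have hsvpos : 0 < sv e := prod_pos fun i _ => pow_pos i.prime.pos _
    have htle : t ≤ sv e := Nat.le_of_dvd hsvpos (subDen_dvd (mem_powerset.mp hT) e)
    have hsv2 : 1 < sv e := by
      obtain ⟨i, hi⟩ := hS
      have h1 : (i : ℕ) ^ e i ∣ sv e := dvd_prod_of_mem _ hi
      have h2 : 1 < (i : ℕ) ^ e i := Nat.one_lt_pow ((he1 i).mp hi) i.prime.one_lt
      exact h2.trans_le (Nat.le_of_dvd hsvpos h1)
    by_cases hsQ : sv e ≤ Q
    swap
    · refine le_trans (le_of_eq (sum_eq_zero fun u _ => ?_)) (by positivity)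
      have hgt : ¬ den u * sv e ≤ Q := fun h =>
        hsQ ((Nat.le_mul_of_pos_left _ (den_pos u)).trans h)
      simp [hf, hgt]
    have hQ' : Q / sv e < Q := Nat.div_lt_self (by omega) hsv2
    have hQ1 : Q / sv e * t ≤ Q :=
      (Nat.mul_le_mul_left _ htle).trans (Nat.div_mul_le_self _ _)
    have htR : (0 : ℝ) < t := by exact_mod_cast ht1
    have hG' := rescale_glob hG ht1 hQ1 (n : ℤ)
    have hM' : E * ((Q / sv e : ℕ) : ℝ) ≤ M / t := by
      rw [le_div_iff₀ htR]
      have : ((Q / sv e : ℕ) : ℝ) * t ≤ Q := by exact_mod_cast hQ1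
      nlinarith [hN.E_one]
    rw [← sum_filter_add_sum_filter_not _ (fun u : Fz X Q => fsupp u = ∅)]
    have hzero : ∑ u ∈ (univ.filter (fun u : Fz X Q => Disjoint (fsupp u) S)).filter
        (fun u => fsupp u = ∅), (14 * m : ℝ) ^ (fsupp u).card * f (e, T) u ^ 2 ≤ 16 * α ^ 2 := by
      let z : Fz X Q := fun i => ⟨0, ord_pos i⟩
      have hsub : (univ.filter (fun u : Fz X Q => Disjoint (fsupp u) S)).filter
          (fun u => fsupp u = ∅) ⊆ {z} := fun u hu => by
        refine mem_singleton.mpr (funext fun i => Fin.ext ?_)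
        by_contra h
        have : i ∈ fsupp u := mem_filter.mpr ⟨mem_univ _, h⟩
        rw [(mem_filter.mp hu).2] at this
        exact notMem_empty _ this
      refine (sum_le_sum_of_subset_of_nonneg hsub fun u _ _ => by positivity).trans ?_
      have hz : fsupp z = ∅ := filter_eq_empty_iff.mpr fun i _ => by simp [z]
      have hd : den z = 1 := le_antisymm (den_le_one_iff.mpr hz) (den_pos z)
      have h0 : theta z = 0 := sum_eq_zero fun i _ => by simp [z]
      rw [sum_singleton, hz, card_empty, pow_zero, one_mul]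
      simp only [hf, hd, one_mul, h0, mul_zero, if_pos hsQ, wt_one]
      rw [← ht]
      have hb := norm_fhat_le (rescale A t (n : ℤ)) (div_pos hM0 htR) 0
      have hcard := glob_card (R := 1) ⟨hG'.supp, fun r x h1 h2 => hG'.card_le r x h1
        (h2.trans (Nat.div_pos hsQ hsvpos))⟩ le_rfl
      have h4 : ((rescale A t (n : ℤ)).card : ℝ) / (M / t) ≤ 4 * α := by
        rw [div_le_iff₀ (div_pos hM0 htR)]
        exact hcard
      calc ‖fhat (rescale A t (n : ℤ)) (M / t) 0‖ ^ 2 ≤ (4 * α) ^ 2 :=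
            pow_le_pow_left₀ (norm_nonneg _) (hb.trans h4) 2
        _ = _ := by ring
    have hrest : ∑ u ∈ (univ.filter (fun u : Fz X Q => Disjoint (fsupp u) S)).filter
        (fun u => ¬fsupp u = ∅), (14 * m : ℝ) ^ (fsupp u).card * f (e, T) u ^ 2 ≤ α ^ 2 := by
      set U := ((univ.filter (fun u : Fz X Q => Disjoint (fsupp u) S)).filter
        (fun u => ¬fsupp u = ∅)).filter (fun u => den u * sv e ≤ Q) with hUdef
      have h1 : ∑ u ∈ (univ.filter (fun u : Fz X Q => Disjoint (fsupp u) S)).filter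
          (fun u => ¬fsupp u = ∅), (14 * m : ℝ) ^ (fsupp u).card * f (e, T) u ^ 2 ≤
          ∑ u ∈ U, wt ω (den u) *
            ‖fhat (rescale A t (n : ℤ)) (M / t) ((t : ℝ) * theta u)‖ ^ 2 := by
        rw [hUdef]
        conv_rhs => rw [sum_filter]
        refine sum_le_sum fun u hu => ?_
        simp only [hf, ← ht]
        by_cases hle : den u * sv e ≤ Q
        · rw [if_pos hle, if_pos hle]
          have hd1 : 1 < den u := by
            have h := (mem_filter.mp hu).2
            by_contra h'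
            exact h (den_le_one_iff.mp (by omega))
          have h2 := (supp_weight_le hN hω hnn u hd1).trans hN.delta_le
          have h3 : 0 ≤ wt ω (den u) *
              ‖fhat (rescale A t (n : ℤ)) (M / t) ((t : ℝ) * theta u)‖ ^ 2 :=
            mul_nonneg (hω _) (sq_nonneg _)
          calc (14 * m : ℝ) ^ (fsupp u).card *
                (wt ω (den u) * ‖fhat (rescale A t (n : ℤ)) (M / t) ((t : ℝ) * theta u)‖) ^ 2
              = ((14 * m : ℝ) ^ (fsupp u).card * wt ω (den u)) *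
                (wt ω (den u) * ‖fhat (rescale A t (n : ℤ)) (M / t) ((t : ℝ) * theta u)‖ ^ 2) := by
                ring
            _ ≤ 1 * _ := mul_le_mul_of_nonneg_right h2 h3
            _ = _ := one_mul _
        · simp [if_neg hle]
      refine h1.trans ((mass_ge_freqs hω _ _ U fun u hu => ?_).trans
        ((ih _ hQ' _ _ hM' hG').trans (mul_le_of_le_one_left (sq_nonneg _) hN.eps_le)))
      obtain ⟨hu1, hle⟩ := mem_filter.mp hu
      obtain ⟨hu2, hne⟩ := mem_filter.mp hu1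
      refine ⟨?_, (Nat.le_div_iff_mul_le hsvpos).mpr hle, ?_⟩
      · by_contra h'
        exact hne (den_le_one_iff.mp (by omega))
      · refine Nat.Coprime.coprime_dvd_left (subDen_dvd (mem_powerset.mp hT) e) ?_
        refine Nat.Coprime.prod_left fun i hi => Nat.Coprime.prod_right fun j _ => ?_
        by_cases hij : i = j
        · subst hij
          have : (u i).val = 0 := by
            by_contra h
            exact disjoint_right.mp (mem_filter.mp hu2).2 hi (mem_filter.mpr ⟨mem_univ _, h⟩)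
          rw [(part_eq_one_iff u i).mpr this]
          exact Nat.coprime_one_right _
        · rw [part_eq]
          exact ((Nat.coprime_primes i.prime j.prime).mpr fun h => hij (Subtype.ext h)).pow _ _
    nlinarith [sq_nonneg α]
  have hwsum : ∑ p ∈ K, we p.1 = ∏ i ∈ S, (2 * ∑ j ∈ Icc 1 Q, ω i j) := by
    rw [hK, sum_product]
    simp only [sum_const, nsmul_eq_mul, card_powerset]
    rw [← mul_sum, prod_mul_distrib, prod_const]
    push_cast
    congr 1
    simp only [hwe, hEs]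
    calc ∑ e ∈ Fintype.piFinset fun i => if i ∈ S then Icc 1 Q else ({0} : Finset ℕ),
          ∏ i ∈ S, ω i (e i)
        = ∑ e ∈ Fintype.piFinset fun i => if i ∈ S then Icc 1 Q else ({0} : Finset ℕ),
          ∏ i, if i ∈ S then ω i (e i) else 1 := by
          refine sum_congr rfl fun e _ => ?_
          rw [prod_ite_mem, univ_inter]
      _ = ∏ i, ∑ j ∈ (if i ∈ S then Icc 1 Q else ({0} : Finset ℕ)),
          if i ∈ S then ω i j else 1 :=
          (prod_univ_sum (fun i : Ix X Q => if i ∈ S then Icc 1 Q else ({0} : Finset ℕ))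
            (fun i j => if i ∈ S then ω i j else 1)).symm
      _ = ∏ i, if i ∈ S then ∑ j ∈ Icc 1 Q, ω i j else 1 := by
          refine prod_congr rfl fun i _ => ?_
          split_ifs <;> simp
      _ = _ := by rw [prod_ite_mem, univ_inter]
  have hwS : 0 ≤ ∑ p ∈ K, we p.1 := sum_nonneg fun p _ => hwnn p
  calc _ ≤ ∑ u ∈ univ.filter (fun u : Fz X Q => Disjoint (fsupp u) S),
        (14 * m : ℝ) ^ (fsupp u).card *
          ((∑ p ∈ K, we p.1) * ∑ p ∈ K, we p.1 * f p u ^ 2) := by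
        refine sum_le_sum fun u hu => mul_le_mul_of_nonneg_left ?_ (by positivity)
        refine (pow_le_pow_left₀ (norm_nonneg _) (hvsum u hu) 2).trans ?_
        exact sum_sq_le_sum_mul_sum_of_sq_eq_mul K (fun p _ => hwnn p)
          (fun p _ => mul_nonneg (hwnn p) (sq_nonneg _)) (fun p _ => by ring)
    _ = (∑ p ∈ K, we p.1) * ∑ p ∈ K, we p.1 *
        ∑ u ∈ univ.filter (fun u : Fz X Q => Disjoint (fsupp u) S),
          (14 * m : ℝ) ^ (fsupp u).card * f p u ^ 2 := by
        have hrow : ∀ u : Fz X Q, (14 * m : ℝ) ^ (fsupp u).card *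
            ((∑ p ∈ K, we p.1) * ∑ p ∈ K, we p.1 * f p u ^ 2) =
            (∑ p ∈ K, we p.1) * ∑ p ∈ K, we p.1 * ((14 * m : ℝ) ^ (fsupp u).card * f p u ^ 2) := by
          intro u
          rw [mul_left_comm, mul_sum]
          exact congrArg _ (sum_congr rfl fun p _ => mul_left_comm _ _ _)
        rw [sum_congr rfl fun u _ => hrow u, ← mul_sum, sum_comm]
        exact congrArg _ (sum_congr rfl fun p _ => (mul_sum _ _ _).symm)
    _ ≤ (∑ p ∈ K, we p.1) * ∑ p ∈ K, we p.1 * (25 * α ^ 2) :=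
        mul_le_mul_of_nonneg_left
          (sum_le_sum fun p hp => mul_le_mul_of_nonneg_left (hkey p hp) (hwnn p)) hwS
    _ = _ := by rw [← sum_mul, hwsum]; ring

/-- The coefficients of the test polynomial. -/
def coeff (ω : ℕ → ℕ → ℝ) (A : Finset ℤ) (M : ℝ) (b : Fz X Q) : ℂ :=
  if b ∈ freqs X Q then (wt ω (den b) : ℂ) * starRingEnd ℂ (fhat A M (theta b)) else 0

/-- The test polynomial. -/
def testPoly (ω : ℕ → ℕ → ℝ) (X Q : ℕ) (A : Finset ℤ) (M : ℝ) (k : ℤ) : ℂ :=
  ∑ b ∈ freqs X Q, coeff ω A M b * ee ((k : ℝ) * theta b)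

/-- The moments of the test polynomial over a period, given the lower levels. -/
theorem period_bound (hN : Num ω X Qmax m α ε δ' ρ E) (hω : ∀ q, 0 ≤ wt ω q)
    (hnn : ∀ p j, 0 ≤ ω p j) {A : Finset ℤ} {M : ℝ} (hG : Glob A α M Q) (hQ : 1 ≤ Q)
    (hQmax : Q ≤ Qmax) (hM : E * Q ≤ M)
    (ih : ∀ Q' < Q, ∀ (A' : Finset ℤ) (M' : ℝ), E * Q' ≤ M' → Glob A' α M' Q' →
      mass ω X Q' A' M' ≤ ε * α ^ 2) :
    (∑ k ∈ range (per X Q), ‖testPoly ω X Q A M (k : ℤ)‖ ^ (2 * m)) / per X Q ≤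
      (δ' * ∑ b ∈ freqs X Q, wt ω (den b) * ‖fhat A M (theta b)‖ ^ 2) ^ m +
        (5 * α) ^ (2 * m) * ρ ^ (2 * m) := by
  classical
  set B := freqs X Q with hB
  set W := ∑ b ∈ B, wt ω (den b) * ‖fhat A M (theta b)‖ ^ 2 with hW
  have hW0 : 0 ≤ W := sum_nonneg fun b _ => mul_nonneg (hω _) (sq_nonneg _)
  set c : Fz X Q → ℂ := fun b =>
    if b ∈ B then (wt ω (den b) : ℂ) * starRingEnd ℂ (fhat A M (theta b)) else 0 with hc
  set g : ℤ → ℂ := fun k => ∑ b ∈ B, c b * ee ((k : ℝ) * theta b) with hg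
  show (∑ k ∈ range (per X Q), ‖g (k : ℤ)‖ ^ (2 * m)) / per X Q ≤ _
  have hper : (0 : ℝ) < per X Q := by exact_mod_cast per_pos
  rw [div_le_iff₀ hper]
  have h1 : ∑ k ∈ range (per X Q), ‖g (k : ℤ)‖ ^ (2 * m) =
      ∑ x : Fz X Q, ‖∑ b, c b * chr b x‖ ^ (2 * m) := by
    rw [sum_Fz_eq]
    refine sum_congr rfl fun k _ => ?_
    congr 2
    rw [← sum_subset (subset_univ B) fun b _ hb => by simp [hc, hb], hg]
    exact sum_congr rfl fun b _ => by rw [chr_toPt]
  rw [h1]
  refine (hyper (fun i => ord_pos i) c hN.m_pos).trans ?_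
  have hbound : ∀ S : Finset (Ix X Q), (10 * m : ℝ) ^ (2 * m * S.card) *
      ∑ x : Fz X Q, (∑ u ∈ univ.filter (fun u : Fz X Q => Disjoint (fsupp u) S),
        (14 * m : ℝ) ^ (fsupp u).card * ‖∑ v ∈ univ.filter (fun v : Fz X Q => fsupp v = S),
          c (merge u v) * chr v x‖ ^ 2) ^ m ≤
      (per X Q : ℝ) * (if S = ∅ then (δ' * W) ^ m
        else (5 * α) ^ (2 * m) * ∏ i ∈ S, (20 * (m : ℝ) * ∑ j ∈ Icc 1 Q, ω i j) ^ (2 * m)) := by
    intro S
    rw [sum_Fz_eq]
    split_ifs with hS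
    · subst hS
      rw [card_empty, mul_zero, pow_zero, one_mul]
      refine (sum_le_card_nsmul _ _ ((δ' * W) ^ m) fun k _ => ?_).trans_eq
        (by rw [card_range, nsmul_eq_mul])
      refine pow_le_pow_left₀ (sum_nonneg fun u _ => by positivity) ?_ m
      let zf : Fz X Q := fun i => ⟨0, ord_pos i⟩
      have hsing : (univ.filter fun v : Fz X Q => fsupp v = ∅) = {zf} := by
        ext v
        simp only [fsupp, mem_filter, mem_univ, true_and, mem_singleton, filter_eq_empty_iff,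
          ne_eq, not_not, forall_const]
        exact ⟨fun h => funext fun i => Fin.ext (h (x := i)), fun h i => by simp [h, zf]⟩
      have hmz : ∀ u : Fz X Q, merge u zf = u := fun u => funext fun i => by simp [merge, zf]
      have hch : chr zf (toPt (k : ℤ)) = 1 := prod_eq_one fun i _ => by simp [zf, ee_zero]
      simp only [hsing, sum_singleton, hmz, hch, mul_one]
      rw [hW, mul_sum]
      refine (sum_le_sum_of_subset_of_nonneg (filter_subset _ _)
        fun u _ _ => by positivity).trans ?_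
      rw [← sum_subset (subset_univ B) fun b _ hb => by simp [hc, hb]]
      refine sum_le_sum fun b hb => ?_
      simp only [hc, if_pos hb, norm_mul, Complex.norm_real, RCLike.norm_conj,
        Real.norm_of_nonneg (hω _)]
      have h2 := supp_weight_le hN hω hnn b (mem_filter.mp hb).2.1
      calc (14 * m : ℝ) ^ (fsupp b).card * (wt ω (den b) * ‖fhat A M (theta b)‖) ^ 2
          = ((14 * m : ℝ) ^ (fsupp b).card * wt ω (den b)) *
            (wt ω (den b) * ‖fhat A M (theta b)‖ ^ 2) := by ring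
        _ ≤ δ' * _ := mul_le_mul_of_nonneg_right h2 (mul_nonneg (hω _) (sq_nonneg _))
    · refine le_trans (mul_le_mul_of_nonneg_left (sum_le_card_nsmul _ _
        (((5 * α * ∏ i ∈ S, (2 * ∑ j ∈ Icc 1 Q, ω i j)) ^ 2) ^ m) fun k _ => ?_)
          (by positivity)) (le_of_eq ?_)
      · refine pow_le_pow_left₀ (sum_nonneg fun u _ => by positivity) ?_ m
        exact inner_bound hN hω hnn hG hQ hM
          ih c (fun b => rfl) S
          (nonempty_iff_ne_empty.mpr hS) k
      · rw [card_range, nsmul_eq_mul, ← pow_mul, mul_pow (5 * α), ← prod_pow,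
          pow_mul (10 * (m : ℝ)), ← prod_const]
        have : ∀ i ∈ S, (20 * (m : ℝ) * ∑ j ∈ Icc 1 Q, ω i j) ^ (2 * m) =
            (10 * m : ℝ) ^ (2 * m) * (2 * ∑ j ∈ Icc 1 Q, ω i j) ^ (2 * m) := fun i _ => by
          rw [← mul_pow]; congr 1; ring
        rw [prod_congr rfl this, prod_mul_distrib]
        ring
  refine (sum_le_sum fun S _ => hbound S).trans ?_
  rw [← mul_sum, mul_comm (((δ' * W) ^ m) + _) (per X Q : ℝ)]
  refine mul_le_mul_of_nonneg_left ?_ hper.le
  rw [← add_sum_erase univ _ (mem_univ (∅ : Finset (Ix X Q))), if_pos rfl,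
    sum_congr rfl fun S hS => if_neg (mem_erase.mp hS).1, ← mul_sum]
  refine add_le_add le_rfl (mul_le_mul_of_nonneg_left ?_
    (pow_nonneg (by linarith [hN.alpha_pos]) _))
  have h3 := hN.prod_small Q hQmax
  rw [prod_one_add (univ : Finset (Ix X Q)), powerset_univ,
    ← add_sum_erase univ _ (mem_univ (∅ : Finset (Ix X Q))), prod_empty] at h3
  linarith

/-- The total size of the coefficients. -/
theorem sum_coeff_le (hN : Num ω X Qmax m α ε δ' ρ E) (hω : ∀ q, 0 ≤ wt ω q)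
    (hnn : ∀ p j, 0 ≤ ω p j) {A : Finset ℤ} {M : ℝ} (hM0 : 0 < M)
    (hcard : (A.card : ℝ) ≤ 4 * α * M) (hQ : 1 ≤ Q) (hQmax : Q ≤ Qmax) :
    ∑ b ∈ freqs X Q, ‖coeff ω A M b‖ ≤ 16 * (Qmax : ℝ) ^ 2 := by
  classical
  set B := freqs X Q with hB
  refine (sum_le_card_nsmul _ _ (4 : ℝ) fun b hb => ?_).trans ?_
  · simp only [coeff, ← hB, if_pos hb, norm_mul, Complex.norm_real, RCLike.norm_conj,
      Real.norm_of_nonneg (hω _)]
    have hw1 : wt ω (den b) ≤ 1 := by
      rw [wt_den_supp hω]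
      refine prod_le_one (fun i _ => hnn _ _) fun i hi => ?_
      have hj : 1 ≤ expo b i := Nat.one_le_iff_ne_zero.mpr fun h =>
        (mem_filter.mp hi).2 ((expo_eq_zero b i).mp h)
      have h1 := (hN.small _ _ i.prime i.gt hj).trans hN.delta_le
      have h2 : (1 : ℝ) ≤ m := by exact_mod_cast hN.m_pos
      nlinarith [hnn (i : ℕ) (expo b i)]
    have h2 := norm_fhat_le A hM0 (theta b)
    have h3 : (A.card : ℝ) / M ≤ 4 := by
      rw [div_le_iff₀ hM0]; nlinarith [hN.alpha_le]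
    nlinarith [norm_nonneg (fhat A M (theta b)), hω (den b)]
  · rw [nsmul_eq_mul]
    have h1 : ((B.card : ℕ) : ℝ) ≤ ((4 * Q ^ 2 : ℕ) : ℝ) := by
      exact_mod_cast card_freqs (X := X) (Q := Q) (by omega)
    have h2 : (Q : ℝ) ≤ Qmax := by exact_mod_cast hQmax
    push_cast at h1
    nlinarith

/-- The step by Hölder. -/
theorem holder_step (hN : Num ω X Qmax m α ε δ' ρ E) (g : ℤ → ℂ) {A J : Finset ℤ} (hsub : A ⊆ J)
    {M W Y Z : ℝ} (hM0 : 0 < M) (hW0 : 0 ≤ W) (hY : 0 ≤ Y) (hZ : 0 ≤ Z)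
    (h1 : W * M ≤ ∑ k ∈ A, ‖g k‖) (hcard : (A.card : ℝ) ≤ 4 * α * M)
    (hJ : ∑ k ∈ J, ‖g k‖ ^ (2 * m) ≤ 3 * M * Y + Z * M) :
    W ^ (2 * m) ≤ (8 * α) ^ (2 * m) * (Y + Z) := by
  have hα := hN.alpha_pos
  obtain ⟨k', hk'⟩ : ∃ k', 2 * m = k' + 1 := ⟨2 * m - 1, by have := hN.m_pos; omega⟩
  have h2 : (W * M) ^ (2 * m) ≤ (4 * α * M) ^ k' * (3 * M * Y + Z * M) := by
    refine (pow_le_pow_left₀ (mul_nonneg hW0 hM0.le) h1 _).trans ?_
    rw [hk']
    refine (pow_sum_le_card_mul_sum_pow (fun k _ => norm_nonneg _) k').trans ?_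
    refine mul_le_mul (pow_le_pow_left₀ (Nat.cast_nonneg _) hcard _) ?_
      (sum_nonneg fun k _ => by positivity) (pow_nonneg (by positivity) _)
    rw [← hk']
    exact (sum_le_sum_of_subset_of_nonneg hsub fun k _ _ => by positivity).trans hJ
  have h3 : 3 * (4 * α) ^ k' ≤ (8 * α) ^ (2 * m) := by
    have : (8 * α) ^ (2 * m) = (4 : ℝ) ^ m * (4 * α) * (4 * α) ^ k' := by
      rw [show (8 : ℝ) * α = 2 * (4 * α) by ring, mul_pow, pow_mul, hk', pow_succ]
      norm_num
      ring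
    rw [this]
    exact mul_le_mul_of_nonneg_right hN.alpha_large (by positivity)
  have hM' : 0 < M ^ (2 * m) := by positivity
  refine le_of_mul_le_mul_right ?_ hM'
  rw [← mul_pow]
  refine h2.trans ?_
  have e : (4 * α * M) ^ k' * M = (4 * α) ^ k' * M ^ (2 * m) := by
    rw [hk', pow_succ, mul_pow]; ring
  calc (4 * α * M) ^ k' * (3 * M * Y + Z * M)
      ≤ (4 * α * M) ^ k' * (3 * M * (Y + Z)) := by
        refine mul_le_mul_of_nonneg_left ?_ (by positivity)
        nlinarith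
    _ = 3 * (4 * α) ^ k' * (Y + Z) * M ^ (2 * m) := by linear_combination (3 * (Y + Z)) * e
    _ ≤ _ := mul_le_mul_of_nonneg_right
        (mul_le_mul_of_nonneg_right h3 (add_nonneg hY hZ)) hM'.le

/-- Solving for the mass. -/
theorem solve_step (hN : Num ω X Qmax m α ε δ' ρ E) {W : ℝ} (hW0 : 0 ≤ W)
    (hmain : W ^ (2 * m) ≤ (8 * α) ^ (2 * m) *
      ((δ' * W) ^ m + (5 * α) ^ (2 * m) * ρ ^ (2 * m) + (ρ * α) ^ (2 * m))) :
    W ≤ ε * α ^ 2 := by
  have hε := hN.eps_pos
  have hα := hN.alpha_pos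
  by_contra hcon
  push Not at hcon
  have hWpos : 0 < W := lt_of_le_of_lt (by positivity) hcon
  have a1 : (8 * α) ^ (2 * m) * (δ' * W) ^ m ≤ W ^ (2 * m) / 3 ^ m := by
    rw [pow_mul, pow_mul W, ← mul_pow, ← div_pow]
    refine pow_le_pow_left₀ (mul_nonneg (sq_nonneg _) (mul_nonneg hN.delta_nonneg hW0)) ?_ _
    rw [le_div_iff₀ (by norm_num : (0 : ℝ) < 3)]
    have : 192 * δ' * α ^ 2 ≤ W := le_trans
      (mul_le_mul_of_nonneg_right hN.delta_small (sq_nonneg α)) hcon.le
    nlinarith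
  have a2 : (8 * α) ^ (2 * m) * ((5 * α) ^ (2 * m) * ρ ^ (2 * m) + (ρ * α) ^ (2 * m)) ≤
      2 * (W ^ (2 * m) / 9 ^ m) := by
    have hb : ∀ r : ℝ, 0 ≤ r → r ≤ 5 → (8 * α) ^ (2 * m) * (r * ρ * α) ^ (2 * m) ≤
        W ^ (2 * m) / 9 ^ m := by
      intro r hr hr5
      rw [← mul_pow, pow_mul, pow_mul W, ← div_pow]
      refine pow_le_pow_left₀ (sq_nonneg _) ?_ _
      rw [le_div_iff₀ (by norm_num : (0 : ℝ) < 9)]
      have h1 : 24 * (r * ρ) * α ^ 2 ≤ W := le_trans (by
        have h144 := hN.rho_small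
        have : r * ρ ≤ 5 * ρ := mul_le_mul_of_nonneg_right hr5 hN.rho_nonneg
        nlinarith [hN.rho_nonneg, sq_nonneg α]) hcon.le
      have h2 : 0 ≤ 24 * (r * ρ) * α ^ 2 := by have := hN.rho_nonneg; positivity
      calc (8 * α * (r * ρ * α)) ^ 2 * 9 = (24 * (r * ρ) * α ^ 2) ^ 2 := by ring
        _ ≤ W ^ 2 := pow_le_pow_left₀ h2 h1 2
    have h1 := hb 5 (by norm_num) le_rfl
    have h2 := hb 1 (by norm_num) (by norm_num)
    rw [one_mul] at h2
    rw [mul_add, show (5 * α) ^ (2 * m) * ρ ^ (2 * m) = (5 * ρ * α) ^ (2 * m) by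
      rw [← mul_pow]; congr 1; ring]
    linarith
  have hWm : 0 < W ^ (2 * m) := by positivity
  have h3 : (3 : ℝ) ≤ 3 ^ m := le_self_pow₀ (by norm_num) (by have := hN.m_pos; omega)
  have h9 : (9 : ℝ) ≤ 9 ^ m := le_self_pow₀ (by norm_num) (by have := hN.m_pos; omega)
  have b1 : W ^ (2 * m) / 3 ^ m ≤ W ^ (2 * m) / 3 :=
    div_le_div_of_nonneg_left hWm.le (by norm_num) h3
  have b2 : W ^ (2 * m) / 9 ^ m ≤ W ^ (2 * m) / 9 :=
    div_le_div_of_nonneg_left hWm.le (by norm_num) h9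
  rw [add_assoc, mul_add] at hmain
  linarith

/-- The bound at every level up to `Qmax`. -/
theorem rough_core (hN : Num ω X Qmax m α ε δ' ρ E) (hω : ∀ q, 0 ≤ wt ω q)
    (hnn : ∀ p j, 0 ≤ ω p j) :
    ∀ Q ≤ Qmax, ∀ (A : Finset ℤ) (M : ℝ), E * Q ≤ M → Glob A α M Q →
      mass ω X Q A M ≤ ε * α ^ 2 := by
  classical
  intro Q
  induction Q using Nat.strong_induction_on with
  | _ Q IH =>
    intro hQmax A M hM hG
    have hε := hN.eps_pos
    rcases Nat.lt_or_ge Q 2 with hQ | hQ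
    · rw [mass, Icc_eq_empty (by omega), filter_empty, sum_empty]
      positivity
    refine (mass_le_freqs hω A M).trans (solve_step hN
      (sum_nonneg fun b _ => mul_nonneg (hω _) (sq_nonneg _)) ?_)
    have hQR : (2 : ℝ) ≤ Q := by exact_mod_cast hQ
    have hM2 : 2 ≤ M := by nlinarith [hN.E_one]
    have hM0 : 0 < M := by linarith
    have hcard := glob_card hG (by omega)
    have hper := period_bound hN hω hnn hG (by omega) hQmax hM
      fun Q' h' A' M' => IH Q' h' (by omega) A' M'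
    have hα := hN.alpha_pos
    have hδ := hN.delta_nonneg
    have hρ := hN.rho_nonneg
    set B := freqs X Q with hB
    set W := ∑ b ∈ B, wt ω (den b) * ‖fhat A M (theta b)‖ ^ 2 with hW
    have hW0 : 0 ≤ W := sum_nonneg fun b _ => mul_nonneg (hω _) (sq_nonneg _)
    -- the mass as an average over the set
    have hWg : (W : ℂ) * M = ∑ k ∈ A, testPoly ω X Q A M k := by
      simp only [testPoly, ← hB]
      rw [sum_comm, hW, Complex.ofReal_sum, sum_mul]
      refine sum_congr rfl fun b hb => ?_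
      have hM' : (M : ℂ) ≠ 0 := by exact_mod_cast hM0.ne'
      rw [← mul_sum, show (∑ k ∈ A, ee ((k : ℝ) * theta b)) = fhat A M (theta b) * M by
        rw [fhat, div_mul_cancel₀ _ hM'], coeff, if_pos hb]
      rw [Complex.ofReal_mul, ← Complex.normSq_eq_norm_sq, Complex.normSq_eq_conj_mul_self]
      ring
    obtain ⟨z, hz⟩ := hG.supp
    set lo : ℤ := ⌈z⌉
    set hi : ℤ := ⌊z + 2 * M⌋
    have hsub : A ⊆ Icc lo hi := fun k hk =>
      mem_Icc.mpr ⟨Int.ceil_le.mpr (hz k hk).1, Int.le_floor.mpr (hz k hk).2⟩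
    have hJ : ((Icc lo hi).card : ℝ) ≤ 3 * M := by
      rw [Int.card_Icc]
      rcases le_total (hi + 1 - lo) 0 with h | h
      · rw [Int.toNat_of_nonpos h]; push_cast; linarith
      · have h1 : ((((hi + 1 - lo).toNat : ℕ) : ℤ) : ℝ) = ((hi + 1 - lo : ℤ) : ℝ) := by
          rw [Int.toNat_of_nonneg h]
        push_cast at h1
        rw [h1]
        linarith [Int.floor_le (z + 2 * M), Int.le_ceil z]
    have hmom := moment_transfer B (coeff ω A M) theta (per X Q) Q m per_pos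
      (fun b hb => by
        obtain ⟨num, hnum, -⟩ := exists_num b
        exact ⟨den b, den_pos b, (mem_filter.mp hb).2.2, den_dvd_per b, num, by
          rw [hnum, Int.cast_natCast]⟩) lo hi
    have hsumc := sum_coeff_le (X := X) hN hω hnn hM0 hcard (by omega) hQmax
    have herr : (∑ b ∈ B, ‖coeff ω A M b‖) ^ (2 * m) * (Q : ℝ) ^ (2 * m) ≤
        (ρ * α) ^ (2 * m) * M := by
      refine le_trans (mul_le_mul (pow_le_pow_left₀ (sum_nonneg fun b _ => norm_nonneg _) hsumc _)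
        (pow_le_pow_left₀ (Nat.cast_nonneg _) (by exact_mod_cast hQmax) _) (by positivity)
        (by positivity)) (hN.err.trans (mul_le_mul_of_nonneg_left ?_ ?_))
      · nlinarith [hN.E_one]
      · rw [pow_mul]; positivity
    refine holder_step hN (testPoly ω X Q A M) hsub hM0 hW0 (by positivity) (by positivity) ?_ hcard
      (hmom.trans (add_le_add (mul_le_mul hJ hper (by positivity) (by linarith)) herr))
    have := congrArg (fun x : ℂ => ‖x‖) hWg
    simp only [norm_mul, Complex.norm_real, Real.norm_of_nonneg hW0,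
      Real.norm_of_nonneg hM0.le] at this
    rw [this]
    exact norm_sum_le _ _

end

end Vale.Agent.P042.Upper.Rgh
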