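import Vale.Agent.P042.Upper.Prod

/-!
Frequencies with prescribed prime factors in the denominator, as points of a product of cyclic
groups of prime power order.
-/

open Finset

namespace Vale.Agent.P042.Upper.Rgh

noncomputable section

variable {X Q : ℕ}

/-- The primes allowed in denominators. -/
def primesIn (X Q : ℕ) : Finset ℕ := (range (Q + 1)).filter fun p => p.Prime ∧ X < p

/-- The coordinates. -/
abbrev Ix (X Q : ℕ) : Type := {p : ℕ // p ∈ primesIn X Q}

theorem Ix.prime (i : Ix X Q) : (i : ℕ).Prime := (mem_filter.mp i.2).2.1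

theorem Ix.gt (i : Ix X Q) : X < (i : ℕ) := (mem_filter.mp i.2).2.2

/-- The order of a coordinate. -/
def ord (i : Ix X Q) : ℕ := (i : ℕ) ^ Q

theorem ord_pos (i : Ix X Q) : 0 < ord i := pow_pos i.prime.pos _

theorem ord_coprime {i j : Ix X Q} (h : i ≠ j) : Nat.Coprime (ord i) (ord j) :=
  ((Nat.coprime_primes i.prime j.prime).mpr fun e => h (Subtype.ext e)).pow _ _

/-- The frequencies. -/
abbrev Fz (X Q : ℕ) : Type := ∀ i : Ix X Q, Fin (ord i)

/-- The denominator of one coordinate. -/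
def part (b : Fz X Q) (i : Ix X Q) : ℕ := ord i / Nat.gcd (b i).val (ord i)

/-- The denominator. -/
def den (b : Fz X Q) : ℕ := ∏ i, part b i

/-- The real frequency. -/
def theta (b : Fz X Q) : ℝ := ∑ i, ((b i).val : ℝ) / (ord i : ℝ)

/-- The common period. -/
def per (X Q : ℕ) : ℕ := ∏ i : Ix X Q, ord i

theorem per_pos : 0 < per X Q := Finset.prod_pos fun i _ => ord_pos i

/-- A point of the product with prescribed integer. -/
def toPt (n : ℤ) : Fz X Q := fun i =>
  ⟨(n % (ord i : ℤ)).toNat, by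
    have h : (0 : ℤ) < ord i := by exact_mod_cast ord_pos i
    have := Int.emod_lt_of_pos n h
    have := Int.emod_nonneg n h.ne'
    omega⟩

theorem part_eq_pow (b : Fz X Q) (i : Ix X Q) : ∃ e ≤ Q, part b i = (i : ℕ) ^ e :=
  (Nat.dvd_prime_pow i.prime).mp (Nat.div_dvd_of_dvd (Nat.gcd_dvd_right _ _))

theorem part_pos (b : Fz X Q) (i : Ix X Q) : 0 < part b i := by
  obtain ⟨e, -, he⟩ := part_eq_pow b i
  rw [he]
  exact pow_pos i.prime.pos _

theorem part_eq_one_iff (b : Fz X Q) (i : Ix X Q) : part b i = 1 ↔ (b i).val = 0 := by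
  constructor
  · intro h
    have hg : Nat.gcd (b i).val (ord i) = ord i := by
      have := Nat.div_mul_cancel (Nat.gcd_dvd_right (b i).val (ord i))
      rw [show ord i / Nat.gcd (b i).val (ord i) = 1 from h, one_mul] at this
      exact this
    have hd : ord i ∣ (b i).val := by
      have := Nat.gcd_dvd_left (b i).val (ord i)
      rwa [hg] at this
    exact Nat.eq_zero_of_dvd_of_lt hd (b i).isLt
  · intro h
    rw [part, h, Nat.gcd_zero_left, Nat.div_self (ord_pos i)]

theorem fsupp_eq (b : Fz X Q) : fsupp b = univ.filter fun i => part b i ≠ 1 :=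
  Finset.filter_congr fun i _ => not_congr (part_eq_one_iff b i).symm

theorem den_pos (b : Fz X Q) : 0 < den b := Finset.prod_pos fun i _ => part_pos b i

theorem part_coprime (b b' : Fz X Q) {i j : Ix X Q} (h : i ≠ j) :
    Nat.Coprime (part b i) (part b' j) :=
  Nat.Coprime.coprime_dvd_left (Nat.div_dvd_of_dvd (Nat.gcd_dvd_right _ _))
    (Nat.Coprime.coprime_dvd_right (Nat.div_dvd_of_dvd (Nat.gcd_dvd_right _ _)) (ord_coprime h))

theorem den_dvd_per (b : Fz X Q) : den b ∣ per X Q :=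
  Finset.prod_dvd_prod_of_dvd _ _ fun _ _ => Nat.div_dvd_of_dvd (Nat.gcd_dvd_right _ _)

/-- The frequency is a fraction in lowest terms with denominator `den b`. -/
theorem exists_num (b : Fz X Q) :
    ∃ num : ℕ, theta b = (num : ℝ) / den b ∧ Nat.Coprime num (den b) := by
  classical
  refine ⟨∑ i, (b i).val / Nat.gcd (b i).val (ord i) * ∏ j ∈ univ.erase i, part b j, ?_, ?_⟩
  · have hd : (den b : ℝ) ≠ 0 := by exact_mod_cast (den_pos b).ne'
    rw [theta, eq_div_iff hd, Finset.sum_mul, Nat.cast_sum]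
    refine Finset.sum_congr rfl fun i _ => ?_
    have ho : (ord i : ℝ) ≠ 0 := by exact_mod_cast (ord_pos i).ne'
    have h1 : (b i).val / Nat.gcd (b i).val (ord i) * ord i = (b i).val * part b i := by
      rw [part, ← Nat.mul_div_assoc _ (Nat.gcd_dvd_right _ _),
        Nat.div_mul_right_comm (Nat.gcd_dvd_left _ _)]
    have h2 : den b = part b i * ∏ j ∈ univ.erase i, part b j :=
      (Finset.mul_prod_erase univ _ (mem_univ i)).symm
    rw [h2, div_mul_eq_mul_div, div_eq_iff ho]
    push_cast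
    have h1' : (((b i).val / Nat.gcd (b i).val (ord i) : ℕ) : ℝ) * ord i =
        ((b i).val : ℝ) * part b i := by exact_mod_cast h1
    rw [mul_right_comm, h1']
    ring
  · refine Nat.coprime_of_dvd fun r hr hnum hden => ?_
    obtain ⟨i, -, hi⟩ := (hr.prime.dvd_finsetProd_iff _).mp hden
    have hother : ∀ j ∈ univ.erase i, r ∣
        (b j).val / Nat.gcd (b j).val (ord j) * ∏ k ∈ univ.erase j, part b k := fun j hj =>
      Dvd.dvd.mul_left (hi.trans (Finset.dvd_prod_of_mem _
        (mem_erase.mpr ⟨(mem_erase.mp hj).1.symm, mem_univ i⟩))) _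
    rw [← Finset.add_sum_erase _ _ (mem_univ i)] at hnum
    have hterm := (Nat.dvd_add_left (Finset.dvd_sum hother)).mp hnum
    rcases hr.dvd_mul.mp hterm with h | h
    · have hco : Nat.Coprime ((b i).val / Nat.gcd (b i).val (ord i)) (part b i) :=
        Nat.coprime_div_gcd_div_gcd (Nat.gcd_pos_of_pos_right _ (ord_pos i))
      exact hr.one_lt.ne' (Nat.eq_one_of_dvd_coprimes hco h hi)
    · obtain ⟨j, hj, hj'⟩ := (hr.prime.dvd_finsetProd_iff _).mp h
      exact hr.one_lt.ne'
        (Nat.eq_one_of_dvd_coprimes (part_coprime b b (mem_erase.mp hj).1) hj' hi)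

/-- The integer `per * theta b`. -/
def toNum (b : Fz X Q) : ℕ := ∑ i, (b i).val * ∏ j ∈ univ.erase i, ord j

theorem toNum_cast (b : Fz X Q) : (toNum b : ℝ) = theta b * per X Q := by
  classical
  rw [toNum, theta, Finset.sum_mul, Nat.cast_sum]
  refine Finset.sum_congr rfl fun i _ => ?_
  have ho : (ord i : ℝ) ≠ 0 := by exact_mod_cast (ord_pos i).ne'
  have h2 : per X Q = ord i * ∏ j ∈ univ.erase i, ord j :=
    (Finset.mul_prod_erase univ _ (mem_univ i)).symm
  rw [h2]
  push_cast
  field_simp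

theorem toNum_inj {b b' : Fz X Q} (h : toNum b ≡ toNum b' [MOD per X Q]) : b = b' := by
  classical
  funext i
  refine Fin.ext ?_
  have hdvd : ord i ∣ per X Q := Finset.dvd_prod_of_mem _ (mem_univ i)
  have key : ∀ c : Fz X Q, toNum c ≡ (c i).val * ∏ j ∈ univ.erase i, ord j [MOD ord i] := by
    intro c
    rw [toNum, ← Finset.add_sum_erase _ _ (mem_univ i)]
    have : ord i ∣ ∑ k ∈ univ.erase i, (c k).val * ∏ j ∈ univ.erase k, ord j :=
      Finset.dvd_sum fun k hk => Dvd.dvd.mul_left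
        (Finset.dvd_prod_of_mem _ (mem_erase.mpr ⟨(mem_erase.mp hk).1.symm, mem_univ i⟩)) _
    obtain ⟨t, ht⟩ := this
    rw [ht]
    exact Nat.add_mul_mod_self_left _ _ _
  have h2 := ((key b).symm.trans ((h.of_dvd hdvd).trans (key b')))
  have hco : Nat.gcd (ord i) (∏ j ∈ univ.erase i, ord j) = 1 :=
    Nat.Coprime.prod_right fun j hj => ord_coprime (mem_erase.mp hj).1.symm
  exact (Nat.ModEq.cancel_right_of_coprime hco h2).eq_of_lt_of_lt (b i).isLt (b' i).isLt

theorem theta_inj {b b' : Fz X Q} (k : ℤ) (h : theta b = theta b' + k) : b = b' := by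
  refine toNum_inj ((Nat.modEq_iff_dvd).mpr ⟨-k, ?_⟩)
  have : ((toNum b' : ℤ) : ℝ) - ((toNum b : ℤ) : ℝ) = ((per X Q : ℤ) : ℝ) * ((-k : ℤ) : ℝ) := by
    push_cast
    rw [toNum_cast, toNum_cast, h]
    ring
  exact_mod_cast this

theorem card_Fz : Fintype.card (Fz X Q) = per X Q := by
  simp [per, Fintype.card_pi]

theorem sum_Fz_eq {β : Type*} [AddCommMonoid β] (f : Fz X Q → β) :
    ∑ x, f x = ∑ n ∈ range (per X Q), f (toPt (n : ℤ)) := by
  classical
  have hinj : ∀ a ∈ range (per X Q), ∀ c ∈ range (per X Q),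
      (toPt (a : ℤ) : Fz X Q) = toPt (c : ℤ) → a = c := by
    intro a ha c hc he
    have hmod : ∀ i : Ix X Q, a ≡ c [MOD ord i] := fun i => by
      have h1 := congrArg Fin.val (congrFun he i)
      simp only [toPt, ← Int.natCast_emod, Int.toNat_natCast] at h1
      exact h1
    have hd : ((per X Q : ℕ) : ℤ) ∣ (c : ℤ) - a := by
      rw [per, Nat.cast_prod]
      refine Finset.prod_dvd_of_coprime (fun i _ j _ hij => ?_) fun i _ =>
        (Nat.modEq_iff_dvd.mp (hmod i))
      exact Int.isCoprime_iff_nat_coprime.mpr (by simpa using ord_coprime hij)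
    exact (Nat.modEq_iff_dvd.mpr hd).eq_of_lt_of_lt (mem_range.mp ha) (mem_range.mp hc)
  have himg : (range (per X Q)).image (fun n : ℕ => (toPt (n : ℤ) : Fz X Q)) = univ := by
    refine eq_univ_of_card _ ?_
    rw [Finset.card_image_of_injOn (fun a ha c hc => hinj a ha c hc), card_range, card_Fz]
  rw [← himg, Finset.sum_image fun a ha c hc => hinj a ha c hc]

theorem ee_sum {ι : Type*} (s : Finset ι) (f : ι → ℝ) : ee (∑ i ∈ s, f i) = ∏ i ∈ s, ee (f i) := by
  classical
  induction s using Finset.induction_on with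
  | empty => simp [ee_zero]
  | insert a t ha ih => rw [Finset.sum_insert ha, Finset.prod_insert ha, ee_add, ih]

theorem chr_toPt (b : Fz X Q) (n : ℤ) : chr b (toPt n) = ee ((n : ℝ) * theta b) := by
  rw [theta, Finset.mul_sum, ee_sum]
  refine Finset.prod_congr rfl fun i _ => ?_
  have ho : (0 : ℤ) < ord i := by exact_mod_cast ord_pos i
  have hb : (((toPt n : Fz X Q) i).val : ℝ) = ((n % (ord i : ℤ) : ℤ) : ℝ) := by
    have : (((toPt n : Fz X Q) i).val : ℤ) = n % (ord i : ℤ) :=
      Int.toNat_of_nonneg (Int.emod_nonneg n ho.ne')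
    exact_mod_cast this
  rw [hb, ← ee_add_int _ (((b i).val : ℤ) * (n / (ord i : ℤ)))]
  congr 1
  have h : ((n % (ord i : ℤ) : ℤ) : ℝ) = (n : ℝ) - (ord i : ℝ) * ((n / (ord i : ℤ) : ℤ) : ℝ) := by
    have := Int.emod_def n (ord i : ℤ)
    exact_mod_cast this
  have ho' : (ord i : ℝ) ≠ 0 := by exact_mod_cast (ord_pos i).ne'
  rw [h]
  push_cast
  field_simp
  ring

theorem dvd_per {q : ℕ} (h1 : 1 ≤ q) (hq : q ≤ Q) (hp : ∀ p ∈ q.primeFactors, X < p) :
    q ∣ per X Q := by
  classical
  have hsub : q.primeFactors ⊆ primesIn X Q := fun p hpq => by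
    have := Nat.le_of_mem_primeFactors hpq
    exact mem_filter.mpr ⟨mem_range.mpr (by omega), Nat.prime_of_mem_primeFactors hpq, hp p hpq⟩
  have e : per X Q = ∏ p ∈ primesIn X Q, p ^ Q :=
    Finset.prod_coe_sort (primesIn X Q) fun p => p ^ Q
  rw [e]
  refine dvd_trans ?_ (Finset.prod_dvd_prod_of_subset _ _ _ hsub)
  nth_rewrite 1 [← Nat.prod_factorization_pow_eq_self (show q ≠ 0 by omega)]
  rw [Finsupp.prod, Nat.support_factorization]
  exact Finset.prod_dvd_prod_of_dvd _ _ fun p hp =>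
    pow_dvd_pow p ((Nat.factorization_lt p (by omega)).le.trans hq)

/-- Every reduced fraction with such a denominator is a frequency. -/
theorem exists_freq {q a : ℕ} (h1 : 1 ≤ q) (hq : q ≤ Q) (hp : ∀ p ∈ q.primeFactors, X < p)
    (ha : Nat.Coprime q a) :
    ∃ b : Fz X Q, den b = q ∧ ∃ k : ℤ, (a : ℝ) / q = theta b + k := by
  obtain ⟨c, hc⟩ := dvd_per h1 hq hp
  have hinj : Function.Injective fun b : Fz X Q =>
      (⟨toNum b % per X Q, Nat.mod_lt _ per_pos⟩ : Fin (per X Q)) := fun b b' h =>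
    toNum_inj (congrArg Fin.val h)
  obtain ⟨b, hb⟩ := ((Fintype.bijective_iff_injective_and_card _).mpr
    ⟨hinj, by rw [card_Fz, Fintype.card_fin]⟩).2 ⟨(a * c) % per X Q, Nat.mod_lt _ per_pos⟩
  have hmod : toNum b ≡ a * c [MOD per X Q] := congrArg Fin.val hb
  obtain ⟨k, hk⟩ := Nat.modEq_iff_dvd.mp hmod
  have hk' : ((a * c : ℕ) : ℝ) - (toNum b : ℝ) = (per X Q : ℝ) * (k : ℝ) := by exact_mod_cast hk
  have hq0 : (q : ℝ) ≠ 0 := by exact_mod_cast (show q ≠ 0 by omega)
  have hper : (per X Q : ℝ) ≠ 0 := by exact_mod_cast per_pos.ne'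
  have hcq : (per X Q : ℝ) = (q : ℝ) * c := by exact_mod_cast hc
  have heq : (a : ℝ) / q = theta b + k := by
    rw [toNum_cast] at hk'
    push_cast at hk'
    rw [div_eq_iff hq0]
    have hc0 : (c : ℝ) ≠ 0 := fun h => hper (by rw [hcq, h, mul_zero])
    refine mul_right_cancel₀ hc0 ?_
    rw [hcq] at hk'
    linear_combination hk'
  refine ⟨b, ?_, k, heq⟩
  obtain ⟨num, hnum, hco⟩ := exists_num b
  have hd0 : (den b : ℝ) ≠ 0 := by exact_mod_cast (den_pos b).ne'
  have hint : (a : ℤ) * den b = (num : ℤ) * q + k * den b * q := by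
    have : (a : ℝ) * den b = (num : ℝ) * q + (k : ℝ) * den b * q := by
      rw [hnum] at heq
      field_simp at heq
      linear_combination heq
    exact_mod_cast this
  refine Nat.dvd_antisymm ?_ ?_
  · have : (den b : ℤ) ∣ (num : ℤ) * q := ⟨a - k * q, by linear_combination -hint⟩
    exact hco.symm.dvd_of_dvd_mul_left (by exact_mod_cast this)
  · have : (q : ℤ) ∣ (a : ℤ) * den b := ⟨num + k * den b, by linear_combination hint⟩
    exact ha.dvd_of_dvd_mul_left (by exact_mod_cast this)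

theorem wt_prod {ι : Type*} (ω : ℕ → ℕ → ℝ) (s : Finset ι) (f : ι → ℕ)
    (h : (s : Set ι).Pairwise fun i j => Nat.Coprime (f i) (f j)) :
    wt ω (∏ i ∈ s, f i) = ∏ i ∈ s, wt ω (f i) := by
  classical
  induction s using Finset.induction_on with
  | empty => simp [wt_one]
  | insert a t ha ih =>
    rw [Finset.prod_insert ha, Finset.prod_insert ha, wt_mul, ih]
    · exact h.mono (by simp)
    · exact Nat.Coprime.prod_right fun j hj =>
        h (by simp) (by simp [hj]) fun e => ha (e ▸ hj)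

theorem wt_den (ω : ℕ → ℕ → ℝ) (b : Fz X Q) : wt ω (den b) = ∏ i, wt ω (part b i) :=
  wt_prod ω _ _ fun _ _ _ _ hij => part_coprime b b hij

theorem wt_prime_pow (ω : ℕ → ℕ → ℝ) {p e : ℕ} (hp : p.Prime) (he : e ≠ 0) :
    wt ω (p ^ e) = ω p e := by
  rw [wt, hp.factorization_pow, Finsupp.prod, Finsupp.support_single _ he]
  simp

theorem fhat_add_int (A : Finset ℤ) (M θ : ℝ) (k : ℤ) : fhat A M (θ + k) = fhat A M θ := by
  unfold fhat
  congr 1
  refine Finset.sum_congr rfl fun n _ => ?_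
  rw [mul_add, ← Int.cast_mul, ee_add_int]

theorem den_le_one_iff {b : Fz X Q} : den b ≤ 1 ↔ fsupp b = ∅ := by
  constructor
  · intro h
    refine Finset.filter_eq_empty_iff.mpr fun i _ => not_not.mpr ((part_eq_one_iff b i).mp ?_)
    have h1 : part b i ≤ den b :=
      Nat.le_of_dvd (den_pos b) (Finset.dvd_prod_of_mem _ (mem_univ i))
    have := part_pos b i
    omega
  · intro h
    rw [fsupp_eq] at h
    refine le_of_eq (Finset.prod_eq_one fun i hi => ?_)
    exact not_not.mp (Finset.filter_eq_empty_iff.mp h hi)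

theorem den_primeFactors (b : Fz X Q) : ∀ p ∈ (den b).primeFactors, X < p := by
  intro p hp
  have hp' := Nat.prime_of_mem_primeFactors hp
  obtain ⟨i, -, hi⟩ := (hp'.prime.dvd_finsetProd_iff _).mp (Nat.dvd_of_mem_primeFactors hp)
  obtain ⟨e, -, he⟩ := part_eq_pow b i
  rw [he] at hi
  have := (Nat.prime_dvd_prime_iff_eq hp' i.prime).mp (hp'.dvd_of_dvd_pow hi)
  exact this ▸ i.gt

end

end Vale.Agent.P042.Upper.Rgh
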