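import Vale.Agent.P042.Upper.Rough.Freq

/-!
Sums of characters over all frequencies with prescribed denominators.
-/

open Finset

namespace Vale.Agent.P042.Upper.Rgh

noncomputable section

variable {X Q : ℕ}

/-- The exponent of one coordinate of a frequency. -/
def expo (b : Fz X Q) (i : Ix X Q) : ℕ := (part b i).factorization i

theorem part_eq (b : Fz X Q) (i : Ix X Q) : part b i = (i : ℕ) ^ expo b i := by
  obtain ⟨e, -, he⟩ := part_eq_pow b i
  rw [expo, he, i.prime.factorization_pow, Finsupp.single_eq_same]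

theorem expo_le (b : Fz X Q) (i : Ix X Q) : expo b i ≤ Q := by
  obtain ⟨e, he, heq⟩ := part_eq_pow b i
  have : e = expo b i := by rw [expo, heq, i.prime.factorization_pow, Finsupp.single_eq_same]
  omega

theorem expo_eq_zero (b : Fz X Q) (i : Ix X Q) : expo b i = 0 ↔ (b i).val = 0 := by
  rw [← part_eq_one_iff, part_eq]
  constructor
  · intro h; rw [h, pow_zero]
  · intro h
    exact (Nat.pow_eq_one.mp h).resolve_left i.prime.one_lt.ne'

/-- The frequencies with prescribed exponents. -/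
def fibre (e : Ix X Q → ℕ) : Finset (Fz X Q) := univ.filter fun v => ∀ i, expo v i = e i

/-- The coordinates of prescribed exponent. -/
def lev (i : Ix X Q) (e : ℕ) : Finset (Fin (ord i)) :=
  univ.filter fun y => ord i / Nat.gcd y.val (ord i) = (i : ℕ) ^ e

/-- The coordinates of exponent at most `e`. -/
def levLe (i : Ix X Q) (e : ℕ) : Finset (Fin (ord i)) :=
  univ.filter fun y => (i : ℕ) ^ (Q - e) ∣ y.val

theorem mem_levLe {i : Ix X Q} {e : ℕ} (he : e ≤ Q) (y : Fin (ord i)) :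
    y ∈ levLe i e ↔ ∃ e' ≤ e, y ∈ lev i e' := by
  simp only [levLe, lev, mem_filter, mem_univ, true_and]
  obtain ⟨c, hc, hg⟩ := (Nat.dvd_prime_pow i.prime).mp (Nat.gcd_dvd_right y.val (ord i))
  have hdiv : ord i / Nat.gcd y.val (ord i) = (i : ℕ) ^ (Q - c) := by
    rw [hg, ord, Nat.pow_div hc i.prime.pos]
  rw [hdiv]
  have hy : ∀ d, d ≤ Q → ((i : ℕ) ^ d ∣ y.val ↔ d ≤ c) := fun d hd => by
    constructor
    · intro h
      have : (i : ℕ) ^ d ∣ Nat.gcd y.val (ord i) := Nat.dvd_gcd h (pow_dvd_pow _ hd)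
      rw [hg] at this
      exact (Nat.pow_dvd_pow_iff_le_right i.prime.one_lt).mp this
    · intro h
      have h1 := Nat.gcd_dvd_left y.val (ord i)
      rw [hg] at h1
      exact (pow_dvd_pow _ h).trans h1
  rw [hy (Q - e) (by omega)]
  constructor
  · intro h; exact ⟨Q - c, by omega, rfl⟩
  · rintro ⟨e', he', h⟩
    have := Nat.pow_right_injective i.prime.two_le h
    omega

theorem lev_disjoint {i : Ix X Q} {e e' : ℕ} (h : e ≠ e') {y : Fin (ord i)} (hy : y ∈ lev i e) :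
    y ∉ lev i e' := fun hy' =>
  h (Nat.pow_right_injective i.prime.two_le
    ((mem_filter.mp hy).2.symm.trans (mem_filter.mp hy').2))

theorem lev_succ (i : Ix X Q) {e : ℕ} (he : e + 1 ≤ Q) :
    lev i (e + 1) = levLe i (e + 1) \ levLe i e := by
  ext y
  rw [mem_sdiff, mem_levLe he, mem_levLe (by omega)]
  constructor
  · exact fun h => ⟨⟨e + 1, le_rfl, h⟩, fun ⟨e', he', h'⟩ => lev_disjoint (by omega) h' h⟩
  · rintro ⟨⟨e', he', h⟩, hn⟩
    rcases Nat.lt_or_ge e' (e + 1) with hlt | hge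
    · exact absurd ⟨e', by omega, h⟩ hn
    · rwa [show e + 1 = e' by omega]

theorem lev_zero (i : Ix X Q) : lev i 0 = levLe i 0 := by
  ext y
  rw [mem_levLe (Nat.zero_le _)]
  exact ⟨fun h => ⟨0, le_rfl, h⟩, fun ⟨e', he', h⟩ => by rwa [show (0 : ℕ) = e' by omega]⟩

theorem geom_ee {q : ℕ} (hq : 0 < q) (j : ℤ) :
    ∑ w ∈ range q, ee ((j : ℝ) * w / q) = if (q : ℤ) ∣ j then (q : ℂ) else 0 := by
  have hq' : (q : ℝ) ≠ 0 := by exact_mod_cast hq.ne'
  split_ifs with h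
  · obtain ⟨t, rfl⟩ := h
    refine (Finset.sum_congr rfl (g := fun _ => (1 : ℂ)) fun w _ => ?_).trans (by simp)
    rw [show (((q : ℤ) * t : ℤ) : ℝ) * w / q = ((t * (w : ℤ) : ℤ) : ℝ) by
        push_cast; field_simp, ee_int]
  · have hz : ∀ w : ℕ, ee ((j : ℝ) * w / q) = ee ((j : ℝ) / q) ^ w := by
      intro w
      rw [ee, ee, ← Complex.exp_nat_mul]
      congr 1
      push_cast
      ring
    simp only [hz]
    have hne : ee ((j : ℝ) / q) ≠ 1 := by
      intro h1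
      rw [ee, Complex.exp_eq_one_iff] at h1
      obtain ⟨t, ht⟩ := h1
      refine h ⟨t, ?_⟩
      have h2 : (2 * (Real.pi : ℂ) * Complex.I) ≠ 0 := by simp [Real.pi_ne_zero]
      have h3 : (((j : ℝ) / q : ℝ) : ℂ) = ((t : ℝ) : ℂ) := by
        refine mul_left_cancel₀ h2 ?_
        push_cast at ht ⊢
        linear_combination ht
      have h4 : (j : ℝ) / q = t := Complex.ofReal_inj.mp h3
      rw [div_eq_iff hq'] at h4
      have : (j : ℝ) = (((q : ℤ) * t : ℤ) : ℝ) := by push_cast; linear_combination h4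
      exact_mod_cast this
    rw [geom_sum_eq hne, ← hz, show (j : ℝ) * q / q = j by field_simp, ee_int, sub_self, zero_div]

theorem sum_levLe (i : Ix X Q) {e : ℕ} (he : e ≤ Q) (j : ℤ) :
    ∑ y ∈ levLe i e, ee ((j : ℝ) * ((y.val : ℝ) / (ord i : ℝ))) =
      if (((i : ℕ) ^ e : ℕ) : ℤ) ∣ j then (((i : ℕ) ^ e : ℕ) : ℂ) else 0 := by
  rw [← geom_ee (pow_pos i.prime.pos e) j]
  have hpow : (i : ℕ) ^ (Q - e) * (i : ℕ) ^ e = ord i := by
    rw [ord, ← pow_add, Nat.sub_add_cancel he]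
  refine (Finset.sum_bij (fun w hw => (⟨w * (i : ℕ) ^ (Q - e), ?_⟩ : Fin (ord i))) ?_ ?_ ?_ ?_).symm
  · rw [← hpow, Nat.mul_comm]
    exact Nat.mul_lt_mul_of_pos_left (mem_range.mp hw) (pow_pos i.prime.pos _)
  · exact fun w _ => mem_filter.mpr ⟨mem_univ _, dvd_mul_left _ _⟩
  · exact fun w _ w' _ h =>
      Nat.eq_of_mul_eq_mul_right (pow_pos i.prime.pos _) (congrArg Fin.val h)
  · intro y hy
    obtain ⟨w, hw⟩ := (mem_filter.mp hy).2
    refine ⟨w, mem_range.mpr ?_, Fin.ext (show w * (i : ℕ) ^ (Q - e) = y.val by rw [hw, Nat.mul_comm])⟩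
    have hlt := y.isLt
    rw [hw, ← hpow] at hlt
    exact Nat.lt_of_mul_lt_mul_left hlt
  · intro w _
    congr 1
    show (j : ℝ) * w / (((i : ℕ) ^ e : ℕ) : ℝ) =
      (j : ℝ) * (((w * (i : ℕ) ^ (Q - e) : ℕ) : ℝ) / (ord i : ℝ))
    rw [← hpow]
    push_cast
    have hp : ((i : ℕ) : ℝ) ≠ 0 := by exact_mod_cast i.prime.pos.ne'
    field_simp

/-- One factor of the signed expansion. -/
def piece (i : Ix X Q) (e : ℕ) (j : ℤ) : ℂ :=
  if (((i : ℕ) ^ e : ℕ) : ℤ) ∣ j then (((i : ℕ) ^ e : ℕ) : ℂ) else 0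

theorem sum_lev_zero (i : Ix X Q) (j : ℤ) :
    ∑ y ∈ lev i 0, ee ((j : ℝ) * ((y.val : ℝ) / (ord i : ℝ))) = 1 := by
  rw [lev_zero, sum_levLe i (Nat.zero_le _)]
  simp

theorem sum_lev_pos (i : Ix X Q) {e : ℕ} (he : e + 1 ≤ Q) (j : ℤ) :
    ∑ y ∈ lev i (e + 1), ee ((j : ℝ) * ((y.val : ℝ) / (ord i : ℝ))) =
      piece i (e + 1) j - piece i e j := by
  rw [lev_succ i he, piece, piece, ← sum_levLe i he, ← sum_levLe i (show e ≤ Q by omega),
    Finset.sum_sdiff_eq_sub]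
  intro y hy
  rw [mem_levLe (by omega)] at hy ⊢
  obtain ⟨e', he', h⟩ := hy
  exact ⟨e', by omega, h⟩

theorem fibre_eq (e : Ix X Q → ℕ) (he : ∀ i, e i ≤ Q) :
    fibre e = Fintype.piFinset fun i => lev i (e i) := by
  ext v
  simp only [fibre, lev, mem_filter, mem_univ, true_and, Fintype.mem_piFinset]
  refine forall_congr' fun i => ?_
  rw [← part, part_eq]
  exact ⟨fun h => by rw [h], fun h => Nat.pow_right_injective i.prime.two_le h⟩

/-- The modulus of one term of the signed expansion. -/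
def subDen (S T : Finset (Ix X Q)) (e : Ix X Q → ℕ) : ℕ :=
  (∏ i ∈ T, (i : ℕ) ^ e i) * ∏ i ∈ S \ T, (i : ℕ) ^ (e i - 1)

theorem subDen_pos (S T : Finset (Ix X Q)) (e : Ix X Q → ℕ) : 0 < subDen S T e :=
  Nat.mul_pos (Finset.prod_pos fun i _ => pow_pos i.prime.pos _)
    (Finset.prod_pos fun i _ => pow_pos i.prime.pos _)

theorem subDen_dvd {S T : Finset (Ix X Q)} (hT : T ⊆ S) (e : Ix X Q → ℕ) :
    subDen S T e ∣ ∏ i ∈ S, (i : ℕ) ^ e i := by
  rw [← Finset.prod_sdiff hT, subDen, mul_comm]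
  exact mul_dvd_mul
    (Finset.prod_dvd_prod_of_dvd _ _ fun i _ => pow_dvd_pow _ (Nat.sub_le _ _)) dvd_rfl

theorem prod_piece (s : Finset (Ix X Q)) (f : Ix X Q → ℕ) (j : ℤ) :
    ∏ i ∈ s, piece i (f i) j =
      if ((∏ i ∈ s, (i : ℕ) ^ f i : ℕ) : ℤ) ∣ j then ((∏ i ∈ s, (i : ℕ) ^ f i : ℕ) : ℂ) else 0 := by
  classical
  induction s using Finset.induction_on with
  | empty => simp
  | insert a t ha ih =>
    rw [Finset.prod_insert ha, Finset.prod_insert ha, ih, piece]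
    have hco : IsCoprime (((a : ℕ) ^ f a : ℕ) : ℤ) ((∏ i ∈ t, (i : ℕ) ^ f i : ℕ) : ℤ) := by
      refine Nat.Coprime.isCoprime (Nat.Coprime.prod_right fun i hi => ?_)
      exact ((Nat.coprime_primes a.prime i.prime).mpr fun e =>
        ha ((Subtype.ext e : a = i) ▸ hi)).pow _ _
    have hiff : (((a : ℕ) ^ f a * ∏ i ∈ t, (i : ℕ) ^ f i : ℕ) : ℤ) ∣ j ↔
        (((a : ℕ) ^ f a : ℕ) : ℤ) ∣ j ∧ ((∏ i ∈ t, (i : ℕ) ^ f i : ℕ) : ℤ) ∣ j := by
      rw [Nat.cast_mul]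
      exact ⟨fun h => ⟨(dvd_mul_right _ _).trans h, (dvd_mul_left _ _).trans h⟩,
        fun h => hco.mul_dvd h.1 h.2⟩
    simp only [hiff]
    split_ifs with h1 h2 <;> simp_all

/-- The character sum over a fibre as a signed sum of congruence indicators. -/
theorem sum_fibre (S : Finset (Ix X Q)) (e : Ix X Q → ℕ) (hS : ∀ i, i ∈ S ↔ e i ≠ 0)
    (he : ∀ i, e i ≤ Q) (j : ℤ) :
    ∑ v ∈ fibre e, ee ((j : ℝ) * theta v) = ∑ T ∈ S.powerset, (-1 : ℂ) ^ (S \ T).card *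
      if (subDen S T e : ℤ) ∣ j then (subDen S T e : ℂ) else 0 := by
  classical
  have h1 : ∀ v : Fz X Q, ee ((j : ℝ) * theta v) =
      ∏ i, ee ((j : ℝ) * (((v i).val : ℝ) / (ord i : ℝ))) := fun v => by
    rw [theta, Finset.mul_sum, ee_sum]
  simp only [h1]
  rw [fibre_eq e he, ← Finset.prod_univ_sum (fun i => lev i (e i))
    (fun i y => ee ((j : ℝ) * ((y.val : ℝ) / (ord i : ℝ))))]
  have h2 : ∀ i, ∑ y ∈ lev i (e i), ee ((j : ℝ) * ((y.val : ℝ) / (ord i : ℝ))) =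
      if i ∈ S then piece i (e i) j + -piece i (e i - 1) j else 1 := by
    intro i
    split_ifs with hi
    · obtain ⟨d, hd⟩ := Nat.exists_eq_succ_of_ne_zero ((hS i).mp hi)
      have hle : d + 1 ≤ Q := by
        have := he i
        omega
      rw [hd, sum_lev_pos i hle, Nat.succ_eq_add_one, Nat.add_sub_cancel, sub_eq_add_neg]
    · rw [not_not.mp (mt (hS i).mpr hi), sum_lev_zero]
  rw [Finset.prod_congr rfl fun i _ => h2 i, Finset.prod_ite_mem, Finset.univ_inter,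
    Finset.prod_add]
  refine Finset.sum_congr rfl fun T hT => ?_
  have hneg : ∏ i ∈ S \ T, -piece i (e i - 1) j =
      (-1 : ℂ) ^ (S \ T).card * ∏ i ∈ S \ T, piece i (e i - 1) j := by
    rw [← Finset.prod_const, ← Finset.prod_mul_distrib]
    exact Finset.prod_congr rfl fun i _ => by ring
  rw [hneg, prod_piece, prod_piece]
  have hco : IsCoprime ((∏ i ∈ T, (i : ℕ) ^ e i : ℕ) : ℤ)
      ((∏ i ∈ S \ T, (i : ℕ) ^ (e i - 1) : ℕ) : ℤ) := by
    refine Nat.Coprime.isCoprime (Nat.Coprime.prod_left fun a ha => Nat.Coprime.prod_right fun i hi =>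
      ((Nat.coprime_primes a.prime i.prime).mpr fun h => ?_).pow _ _)
    exact (mem_sdiff.mp hi).2 ((Subtype.ext h : a = i) ▸ ha)
  have hiff : (subDen S T e : ℤ) ∣ j ↔ ((∏ i ∈ T, (i : ℕ) ^ e i : ℕ) : ℤ) ∣ j ∧
      ((∏ i ∈ S \ T, (i : ℕ) ^ (e i - 1) : ℕ) : ℤ) ∣ j := by
    rw [subDen, Nat.cast_mul]
    exact ⟨fun h => ⟨(dvd_mul_right _ _).trans h, (dvd_mul_left _ _).trans h⟩,
      fun h => hco.mul_dvd h.1 h.2⟩
  by_cases ha : ((∏ i ∈ T, (i : ℕ) ^ e i : ℕ) : ℤ) ∣ j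
  · by_cases hb : ((∏ i ∈ S \ T, (i : ℕ) ^ (e i - 1) : ℕ) : ℤ) ∣ j
    · rw [if_pos ha, if_pos hb, if_pos (hiff.mpr ⟨ha, hb⟩), subDen, Nat.cast_mul]
      ring
    · rw [if_neg hb, if_neg fun h => hb (hiff.mp h).2]
      ring
  · rw [if_neg ha, if_neg fun h => ha (hiff.mp h).1]
    ring

end

end Vale.Agent.P042.Upper.Rgh
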